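import Vale.Agent.P057APFree.Level

/-!
# Quantitative iteration of the levels (P057)
-/

namespace Vale.Agent.P057APFree

open Finset Filter Real Topology

/-- Sets with property `Φ` of density `exp (-(m G^(1/m) + ε) (log N)^(1/m))`. -/
def Fam (m : ℕ) (G : ℝ) (Φ : Finset ℕ → Prop) : Prop :=
  ∀ ε : ℝ, 0 < ε → ∀ᶠ N : ℕ in atTop, ∃ A : Finset ℕ, A ⊆ range N ∧ Φ A ∧
    (N : ℝ) * Real.exp (-((m : ℝ) * G ^ ((1 : ℝ) / m) + ε) * Real.log N ^ ((1 : ℝ) / m)) ≤ A.card

lemma fam_one : Fam 1 1 (fun V => V.card ≤ 1) := by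
  intro ε hε
  filter_upwards [eventually_ge_atTop 1] with N hN
  refine ⟨{0}, by simp; omega, by simp, ?_⟩
  have hN' : (1 : ℝ) ≤ N := by exact_mod_cast hN
  have h0 : 0 ≤ Real.log N := Real.log_nonneg hN'
  calc (N : ℝ) * Real.exp (-(((1 : ℕ) : ℝ) * 1 ^ ((1 : ℝ) / (1 : ℕ)) + ε)
        * Real.log N ^ ((1 : ℝ) / (1 : ℕ)))
      ≤ (N : ℝ) * Real.exp (-Real.log N) := by
        gcongr
        norm_num
        nlinarith
    _ = 1 := by rw [Real.exp_neg, Real.exp_log (by linarith)]; field_simp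
    _ = (({0} : Finset ℕ).card : ℝ) := by simp

/-- Bound for the logarithm of the size of the next level. -/
lemma log_M_le (m D Q : ℕ) (L x v y η δ : ℝ) (hm : 1 ≤ m) (hx0 : 0 < x) (hη0 : 0 < η)
    (hδ : δ = η / (4 * x)) (hu1 : 1 ≤ v) (hvpow : v ^ (m + 1) = L) (hD1 : x * v ≤ D)
    (hD2 : (D : ℝ) < x * v + 1) (hy : y = Real.exp (L / D)) (hy1 : 1 ≤ y)
    (hQ2 : (Q : ℝ) ≤ 2 * y) (hQ0 : 0 < Q)
    (huC : δ - 1 - Real.log δ + 2 * Real.log 2 ≤ v * (η / 2)) :
    Real.log ((D * Q ^ 2 : ℕ) : ℝ) ≤ (2 / x + η) * v ^ m := by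
  have hv0 : 0 < v := by linarith
  have hD0 : (0 : ℝ) < D := lt_of_lt_of_le (mul_pos hx0 hv0) hD1
  have hδ0 : 0 < δ := by rw [hδ]; positivity
  have hQr : (0 : ℝ) < Q := by exact_mod_cast hQ0
  have e : Real.log ((D * Q ^ 2 : ℕ) : ℝ) = Real.log D + 2 * Real.log Q := by
    rw [Nat.cast_mul, Nat.cast_pow, Real.log_mul hD0.ne' (by positivity), Real.log_pow]
    norm_num
  have e1 : Real.log Q ≤ Real.log 2 + L / D := by
    calc Real.log Q ≤ Real.log (2 * y) := Real.log_le_log hQr hQ2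
      _ = Real.log 2 + L / D := by
        rw [Real.log_mul two_ne_zero (by linarith), hy, Real.log_exp]
  have e2 : L / D ≤ v ^ m / x := by
    rw [div_le_div_iff₀ hD0 hx0, ← hvpow, pow_succ]
    nlinarith [pow_nonneg hv0.le m]
  have e3 : Real.log D + Real.log δ ≤ δ * D - 1 := by
    rw [← Real.log_mul hD0.ne' hδ0.ne', mul_comm δ]
    exact Real.log_le_sub_one_of_pos (mul_pos hD0 hδ0)
  have e4 : δ * D ≤ η / 4 * v + δ := by
    calc δ * D ≤ δ * (x * v + 1) := mul_le_mul_of_nonneg_left hD2.le hδ0.le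
      _ = η / 4 * v + δ := by rw [hδ]; field_simp
  have e5 : v ≤ v ^ m := le_self_pow₀ hu1 (by omega)
  have e7 : η * v ≤ η * v ^ m := mul_le_mul_of_nonneg_left e5 hη0.le
  have e8 : 0 ≤ η * v := by positivity
  have e6 : (2 / x + η) * v ^ m = 2 * (v ^ m / x) + η * v ^ m := by ring
  linarith

/-- Passing from the counting inequality to the exponential bound. -/
lemma count_to_exp (N M P D a₀ v₀ : ℕ) (c F w v a e : ℝ) (hM : 0 < M) (hP : 1 ≤ P)
    (ha : a = Real.log P) (hV : (M : ℝ) * Real.exp (-c) ≤ v₀) (hc : c ≤ F)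
    (hnat : N * v₀ ≤ 4 * M * P ^ D * a₀) (hD : (D : ℝ) * a ≤ w * v + a)
    (he : F + (w * v + (a + Real.log 4)) ≤ e) :
    (N : ℝ) * Real.exp (-e) ≤ a₀ := by
  have hMpos : (0 : ℝ) < M := by exact_mod_cast hM
  have hPpos : (0 : ℝ) < P := by exact_mod_cast hP
  have hN0 : (0 : ℝ) ≤ N := Nat.cast_nonneg N
  have h1 : (M : ℝ) * ((N : ℝ) * Real.exp (-c)) ≤ (M : ℝ) * (4 * (P : ℝ) ^ D * a₀) := by
    have : ((N * v₀ : ℕ) : ℝ) ≤ ((4 * M * P ^ D * a₀ : ℕ) : ℝ) := Nat.cast_le.mpr hnat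
    push_cast at this
    have h2 := mul_le_mul_of_nonneg_left hV hN0
    linarith
  have h3 : (N : ℝ) * Real.exp (-c) ≤ 4 * (P : ℝ) ^ D * a₀ := le_of_mul_le_mul_left h1 hMpos
  have h4 : 4 * (P : ℝ) ^ D = Real.exp (Real.log 4 + D * a) := by
    rw [Real.exp_add, Real.exp_log (by norm_num), ha, Real.exp_nat_mul, Real.exp_log hPpos]
  rw [h4] at h3
  calc (N : ℝ) * Real.exp (-e)
      ≤ (N : ℝ) * Real.exp (-c + -(Real.log 4 + D * a)) := by
        gcongr
        linarith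
    _ = (N : ℝ) * Real.exp (-c) * Real.exp (-(Real.log 4 + D * a)) := by
        rw [Real.exp_add, mul_assoc]
    _ ≤ Real.exp (Real.log 4 + D * a) * a₀ * Real.exp (-(Real.log 4 + D * a)) := by gcongr
    _ = (a₀ : ℝ) := by rw [Real.exp_neg]; field_simp

lemma fam_step (m k E P : ℕ) (G : ℝ) (Φ : Finset ℕ → Prop) (hm : 1 ≤ m) (hG : 0 < G)
    (hP : 2 ≤ P) (hfam : Fam m G Φ)
    (hlift : ∀ D Q B M V, P * (B - 1) < Q → Φ V → Lifts k E D Q B M V) :
    Fam (m + 1) (2 * Real.log P * G) (Free k E) := by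
  intro ε hε
  set a := Real.log P with ha
  have ha0 : 0 < a := Real.log_pos (by exact_mod_cast hP)
  have hm0 : (0 : ℝ) < m := by exact_mod_cast hm
  set w := (2 * a * G) ^ ((1 : ℝ) / ((m + 1 : ℕ) : ℝ)) with hw
  have hw0 : 0 < w := Real.rpow_pos_of_pos (by positivity) _
  set x := w / a with hx
  have hx0 : 0 < x := by positivity
  have hwpow : w ^ (m + 1) = 2 * a * G := by
    rw [hw, one_div]
    exact Real.rpow_inv_natCast_pow (by positivity) (by omega)
  have hkey : G ^ ((1 : ℝ) / m) * (2 / x) ^ ((1 : ℝ) / m) = w := by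
    rw [← Real.mul_rpow hG.le (by positivity)]
    have : G * (2 / x) = w ^ m := by
      rw [hx]
      field_simp
      rw [pow_succ] at hwpow
      linarith
    rw [this, one_div]
    exact Real.pow_rpow_inv_natCast hw0.le (by omega)
  obtain ⟨η, hη0, hη⟩ : ∃ η : ℝ, 0 < η ∧
      ((m : ℝ) * G ^ ((1 : ℝ) / m) + η) * (2 / x + η) ^ ((1 : ℝ) / m) < m * w + ε / 2 := by
    have hc : ContinuousAt (fun η : ℝ =>
        ((m : ℝ) * G ^ ((1 : ℝ) / m) + η) * (2 / x + η) ^ ((1 : ℝ) / m)) 0 := by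
      refine ContinuousAt.mul (by fun_prop) ?_
      exact ContinuousAt.rpow_const (by fun_prop) (Or.inr (by positivity))
    have h0 : ((m : ℝ) * G ^ ((1 : ℝ) / m) + 0) * (2 / x + 0) ^ ((1 : ℝ) / m)
        < m * w + ε / 2 := by
      rw [add_zero, add_zero, mul_assoc, hkey]
      linarith
    obtain ⟨η, hη, hη0⟩ := (((hc.eventually (eventually_lt_nhds h0)).filter_mono
      nhdsWithin_le_nhds).and (self_mem_nhdsWithin (a := (0 : ℝ)) (s := Set.Ioi 0))).exists
    exact ⟨η, hη0, hη⟩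
  obtain ⟨M₀, hM₀⟩ := eventually_atTop.mp (hfam η hη0)
  set δ := η / (4 * x) with hδ
  have hδ0 : 0 < δ := by positivity
  set u : ℕ → ℝ := fun N => Real.log N ^ ((1 : ℝ) / ((m + 1 : ℕ) : ℝ)) with hu
  have hlim : Tendsto u atTop atTop :=
    (tendsto_rpow_atTop (by positivity)).comp
      (Real.tendsto_log_atTop.comp tendsto_natCast_atTop_atTop)
  filter_upwards [eventually_ge_atTop 1, hlim.eventually (eventually_ge_atTop 1),
    hlim.eventually (eventually_ge_atTop ((M₀ : ℝ) / x)),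
    hlim.eventually (eventually_ge_atTop ((δ - 1 - Real.log δ + 2 * Real.log 2) / (η / 2))),
    hlim.eventually (eventually_ge_atTop ((a + Real.log 4) / (ε / 2)))] with N hN hu1 huM huC huE
  set L := Real.log N with hL
  set v := u N with hv
  have hN' : (1 : ℝ) ≤ N := by exact_mod_cast hN
  have hL0 : 0 ≤ L := Real.log_nonneg hN'
  have hvpow : v ^ (m + 1) = L := by
    rw [hv, hu]
    simp only
    rw [one_div]
    exact Real.rpow_inv_natCast_pow hL0 (by omega)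
  set D := ⌈x * v⌉₊ with hD
  have hD1 : x * v ≤ D := Nat.le_ceil _
  have hD2 : (D : ℝ) < x * v + 1 := Nat.ceil_lt_add_one (by positivity)
  have hD0 : (0 : ℝ) < D := lt_of_lt_of_le (by positivity) hD1
  set y := Real.exp (L / D) with hy
  have hy1 : 1 ≤ y := Real.one_le_exp (by positivity)
  set Q := ⌈y⌉₊ with hQ
  have hQy : y ≤ Q := Nat.le_ceil _
  have hQ2 : (Q : ℝ) ≤ 2 * y := by
    linarith [Nat.ceil_lt_add_one (show 0 ≤ y by linarith)]
  have hQ0 : 0 < Q := by exact_mod_cast (show (0 : ℝ) < Q by linarith)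
  have hDn : 0 < D := by exact_mod_cast hD0
  set B := (Q - 1) / P + 1 with hB
  have hdm := Nat.div_add_mod (Q - 1) P
  have hml := Nat.mod_lt (Q - 1) (show P > 0 by omega)
  have hBQ : B ≤ Q := by
    have := Nat.div_le_self (Q - 1) P
    omega
  have hPB : P * (B - 1) < Q := by
    rw [hB, Nat.add_sub_cancel]
    omega
  have hQPB : Q ≤ P * B := by
    rw [hB, Nat.mul_add, Nat.mul_one]
    omega
  set M := D * Q ^ 2 with hM
  have hMD : D ≤ M := Nat.le_mul_of_pos_right _ (pow_pos hQ0 2)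
  have hMM : M₀ ≤ M := by
    refine le_trans ?_ hMD
    have : (M₀ : ℝ) ≤ D := by
      rw [div_le_iff₀ hx0] at huM
      linarith
    exact_mod_cast this
  obtain ⟨V, hVs, hVΦ, hVc⟩ := hM₀ M hMM
  obtain ⟨A, hAs, hAf, hAc⟩ := level k E D Q B M N V hBQ hVs
    (Nat.mul_le_mul_left _ (Nat.pow_le_pow_left hBQ 2)) (by omega)
    (hlift D Q B M V hPB hVΦ)
  refine ⟨A, hAs, hAf, ?_⟩
  have hMpos : (0 : ℝ) < M := by exact_mod_cast (show 0 < M by omega)
  have hlogM : Real.log M ≤ (2 / x + η) * v ^ m := by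
    rw [div_le_iff₀ (by positivity)] at huC
    exact log_M_le m D Q L x v y η δ hm hx0 hη0 hδ hu1 hvpow hD1 hD2 hy hy1 hQ2 hQ0 huC
  have hlogM0 : 0 ≤ Real.log M := Real.log_nonneg (by exact_mod_cast (show 1 ≤ M by omega))
  have hexp : ((m : ℝ) * G ^ ((1 : ℝ) / m) + η) * Real.log M ^ ((1 : ℝ) / m)
      ≤ (m * w + ε / 2) * v := by
    calc ((m : ℝ) * G ^ ((1 : ℝ) / m) + η) * Real.log M ^ ((1 : ℝ) / m)
        ≤ ((m : ℝ) * G ^ ((1 : ℝ) / m) + η) * ((2 / x + η) * v ^ m) ^ ((1 : ℝ) / m) := by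
          gcongr
      _ = ((m : ℝ) * G ^ ((1 : ℝ) / m) + η) * (2 / x + η) ^ ((1 : ℝ) / m) * v := by
          rw [Real.mul_rpow (by positivity) (by positivity), one_div,
            Real.pow_rpow_inv_natCast (by linarith) (by omega), mul_assoc]
      _ ≤ (m * w + ε / 2) * v := by
          exact mul_le_mul_of_nonneg_right hη.le (by linarith)
  have hnat : N * V.card ≤ 4 * M * P ^ D * A.card := by
    have hNQ : N ≤ Q ^ D := by
      have : (N : ℝ) ≤ (Q : ℝ) ^ D := by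
        calc (N : ℝ) = y ^ D := by
              rw [hy, ← Real.exp_nat_mul, mul_div_cancel₀ _ hD0.ne', hL,
                Real.exp_log (by linarith)]
          _ ≤ (Q : ℝ) ^ D := by gcongr
      exact_mod_cast this
    have hB0 : 0 < B ^ D := pow_pos (Nat.succ_pos _) D
    refine Nat.le_of_mul_le_mul_left ?_ hB0
    calc B ^ D * (N * V.card) = N * (B ^ D * V.card) := by ring
      _ ≤ 2 * M * (N + Q ^ D) * A.card := hAc
      _ ≤ 2 * M * (2 * Q ^ D) * A.card := by gcongr; omega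
      _ ≤ 2 * M * (2 * (P * B) ^ D) * A.card := by gcongr
      _ = B ^ D * (4 * M * P ^ D * A.card) := by rw [mul_pow]; ring
  rw [div_le_iff₀ (by positivity)] at huE
  simp only [neg_mul] at hVc ⊢
  refine count_to_exp N M P D A.card V.card
    (((m : ℝ) * G ^ ((1 : ℝ) / m) + η) * Real.log M ^ ((1 : ℝ) / m))
    ((m * w + ε / 2) * v) w v a _ (by omega) (by omega) ha ?_ hexp hnat ?_ ?_
  · exact hVc
  · have hxa : x * a = w := by rw [hx]; field_simp
    calc (D : ℝ) * a ≤ (x * v + 1) * a := mul_le_mul_of_nonneg_right hD2.le ha0.le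
      _ = w * v + a := by rw [← hxa]; ring
  · rw [show L ^ ((1 : ℝ) / ((m + 1 : ℕ) : ℝ)) = v from rfl]
    push_cast
    linarith

/-- A `Free k 1` set has no `k`-term arithmetic progression. -/
lemma free_one_noAP {k : ℕ} {A : Finset ℕ} (hk : 2 ≤ k) (hA : Free k 1 A) (a d : ℕ)
    (hd : 0 < d) : ¬ ∀ j < k, a + j * d ∈ A := by
  intro h
  have h2 : ∀ j, j + 1 + 1 < k →
      (fwdDiff 1)^[1 + 1] (fun t => ((a + t * d : ℕ) : ℤ)) j = 0 := by
    intro j _
    simp only [Function.iterate_succ_apply', Function.iterate_zero_apply, fwdDiff]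
    push_cast
    ring
  have := hA (fun j => a + j * d) h h2 1 (by omega)
  simp at this
  omega

end Vale.Agent.P057APFree
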