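import Vale.Agent.P057APFree.Analysis

/-!
# A random bottom level for the Rankin construction (P057)

A subset of `range M` with no nonconstant `k`-term sequence of degree `D` and with
`M ^ (1 - 2D/(k+D))` elements, when some prime `p` has `D + 2 ≤ p ≤ k`.
-/

namespace Vale.Agent.P057APFree

open Finset Polynomial fwdDiff

lemma choose_pred_cast {p : ℕ} (hp : p.Prime) :
    ∀ i, i < p → (((p - 1).choose i : ℕ) : ZMod p) = (-1) ^ i := by
  intro i
  induction i with
  | zero => simp
  | succ i ih =>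
    intro hi
    have h1 : (p - 1).choose i + (p - 1).choose (i + 1) = p.choose (i + 1) := by
      conv_rhs => rw [show p = p - 1 + 1 by have := hp.pos; omega]
      exact (Nat.choose_succ_succ' _ _).symm
    have h2 : ((p.choose (i + 1) : ℕ) : ZMod p) = 0 :=
      (ZMod.natCast_eq_zero_iff _ _).mpr (hp.dvd_choose_self (by omega) hi)
    have h3 := congrArg (fun t : ℕ => (t : ZMod p)) h1
    simp only [Nat.cast_add, h2, ih (by omega)] at h3
    rw [pow_succ]
    linear_combination h3

/-- A `0`-`1` sequence of degree `D` on `k` terms is constant if a prime lies in `[D+2, k]`. -/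
lemma binary_const {k D p : ℕ} (hp : p.Prime) (hDp : D + 2 ≤ p) (hpk : p ≤ k) (f : ℕ → ℤ)
    (hf : ∀ j < k, f j = 0 ∨ f j = 1)
    (hrec : ∀ j, j + D + 1 < k → (Δ_[1])^[D + 1] f j = 0) : ∀ j < k, f j = f 0 := by
  have := Fact.mk hp
  have hdiff : ∀ e j, j + D + 1 + e < k → (Δ_[1])^[D + 1 + e] f j = 0 := by
    intro e
    induction e with
    | zero => exact fun j hj => hrec j hj
    | succ e ih =>
      intro j hj
      rw [← add_assoc, Function.iterate_succ_apply']
      simp only [fwdDiff]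
      rw [ih _ (by omega), ih _ (by omega), sub_zero]
  have hwin : ∀ j, j + p ≤ k → ∀ i < p, f (j + i) = f j := by
    intro j hj
    have h0 := hdiff (p - 1 - (D + 1)) j (by omega)
    rw [show D + 1 + (p - 1 - (D + 1)) = p - 1 by omega, fwdDiff_iter_eq_sum_shift,
      show p - 1 + 1 = p by have := hp.pos; omega] at h0
    have h1 := congrArg (fun t : ℤ => (t : ZMod p)) h0
    simp only [smul_eq_mul, mul_one, Int.cast_sum, Int.cast_mul, Int.cast_pow, Int.cast_neg,
      Int.cast_one, Int.cast_natCast, Int.cast_zero] at h1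
    have h2 : ((∑ i ∈ range p, f (j + i) : ℤ) : ZMod p) * (-1) ^ (p - 1) = 0 := by
      rw [← h1, Int.cast_sum, Finset.sum_mul]
      refine Finset.sum_congr rfl (fun i hi => ?_)
      have hi' := mem_range.mp hi
      rw [choose_pred_cast hp i hi', ← pow_add, show p - 1 - i + i = p - 1 by omega]
      ring
    have h3 : ((∑ i ∈ range p, f (j + i) : ℤ) : ZMod p) = 0 :=
      (mul_eq_zero.mp h2).resolve_right (pow_ne_zero _ (neg_ne_zero.mpr one_ne_zero))
    rw [ZMod.intCast_zmod_eq_zero_iff_dvd] at h3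
    have hb : ∀ i ∈ range p, 0 ≤ f (j + i) ∧ f (j + i) ≤ 1 := fun i hi => by
      have := mem_range.mp hi
      rcases hf (j + i) (by omega) with h | h <;> omega
    have hlo : 0 ≤ ∑ i ∈ range p, f (j + i) := Finset.sum_nonneg (fun i hi => (hb i hi).1)
    have hhi : ∑ i ∈ range p, f (j + i) ≤ p := by
      simpa using Finset.sum_le_sum (fun i hi => (hb i hi).2)
    obtain ⟨c, hc⟩ := h3
    have hp0 : (0 : ℤ) < p := by exact_mod_cast hp.pos
    have hc01 : c = 0 ∨ c = 1 := by
      have h1 : 0 ≤ c := by nlinarith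
      have h2 : c ≤ 1 := by nlinarith
      omega
    have hall : ∀ i ∈ range p, f (j + i) = c := by
      rcases hc01 with rfl | rfl
      · rw [mul_zero] at hc
        exact (Finset.sum_eq_zero_iff_of_nonneg (fun i hi => (hb i hi).1)).mp hc
      · have hz : ∑ i ∈ range p, (1 - f (j + i)) = 0 := by
          rw [Finset.sum_sub_distrib, hc]; simp
        intro i hi
        have := (Finset.sum_eq_zero_iff_of_nonneg
          (fun i hi => sub_nonneg.mpr (hb i hi).2)).mp hz i hi
        omega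
    intro i hi
    have e := hall 0 (mem_range.mpr hp.pos)
    rw [add_zero] at e
    rw [hall i (mem_range.mpr hi), e]
  intro j
  induction j with
  | zero => simp
  | succ j ih =>
    intro hj
    rw [← ih (by omega)]
    by_cases h : j + p ≤ k
    · exact hwin j h 1 hp.one_lt
    · have e1 := hwin (k - p) (by omega) (j + 1 - (k - p)) (by omega)
      have e2 := hwin (k - p) (by omega) (j - (k - p)) (by omega)
      rw [Nat.add_sub_of_le (by omega)] at e1 e2
      rw [e1, e2]

/-- A degree `D` sequence with more than `D` zeros among `k` terms vanishes there. -/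
lemma eq_zero_of_many_zeros {k D : ℕ} (d : ℕ → ℤ)
    (hrec : ∀ j, j + D + 1 < k → (Δ_[1])^[D + 1] d j = 0) (Z : Finset ℕ) (hZ : Z ⊆ range k)
    (hc : D < Z.card) (h0 : ∀ j ∈ Z, d j = 0) : ∀ j < k, d j = 0 := by
  obtain ⟨P, hPd, hPe⟩ := exists_poly (fun j => (d j : ℝ)) k D (fun j hj => by
    have := diff_cast d (D + 1) j
    rw [this, hrec j hj, Int.cast_zero])
  have hP : P = 0 := by
    refine eq_zero_of_natDegree_lt_card_of_eval_eq_zero' _
      (Z.image (fun t : ℕ => (t : ℝ))) ?_ ?_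
    · intro y hy
      obtain ⟨j, hj, rfl⟩ := Finset.mem_image.mp hy
      rw [hPe j (mem_range.mp (hZ hj)), h0 j hj, Int.cast_zero]
    · rw [card_image_of_injective _ Nat.cast_injective]
      omega
  intro j hj
  have := hPe j hj
  rw [hP, eval_zero] at this
  exact_mod_cast this.symm

/-- Some `t` elements of `s` carry at least the average weight. -/
lemma exists_heavy_subset {ι : Type*} [DecidableEq ι] (f : ι → ℕ) :
    ∀ (n : ℕ) (s : Finset ι), s.card = n → ∀ t ≤ n,
      ∃ J ⊆ s, J.card = t ∧ t * ∑ i ∈ s, f i ≤ n * ∑ i ∈ J, f i := by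
  intro n
  induction n with
  | zero => exact fun s _ t ht => ⟨∅, by simp, by simp; omega, by simp; omega⟩
  | succ n ih =>
    intro s hs t ht
    rcases ht.eq_or_lt with rfl | hlt
    · exact ⟨s, subset_rfl, hs, le_rfl⟩
    obtain ⟨a, ha, hmin⟩ := Finset.exists_min_image s f (card_pos.mp (by omega))
    have hs' : (s.erase a).card = n := by rw [card_erase_of_mem ha, hs]; rfl
    obtain ⟨J, hJ, hJc, hle⟩ := ih (s.erase a) hs' t (by omega)
    refine ⟨J, hJ.trans (erase_subset _ _), hJc, ?_⟩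
    have h1 : (n + 1) * f a ≤ ∑ i ∈ s, f i := by
      simpa [hs] using Finset.card_nsmul_le_sum s f (f a) hmin
    have h2 : ∑ i ∈ s, f i = f a + ∑ i ∈ s.erase a, f i := (Finset.add_sum_erase s f ha).symm
    rcases Nat.eq_zero_or_pos n with rfl | hn
    · simp [show t = 0 by omega]
    refine Nat.le_of_mul_le_mul_left ?_ hn
    calc n * (t * ∑ i ∈ s, f i) = t * (n * ∑ i ∈ s, f i) := by ring
      _ ≤ t * ((n + 1) * ∑ i ∈ s.erase a, f i) := by
        refine Nat.mul_le_mul_left t ?_
        rw [h2] at h1 ⊢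
        nlinarith
      _ = (n + 1) * (t * ∑ i ∈ s.erase a, f i) := by ring
      _ ≤ (n + 1) * (n * ∑ i ∈ J, f i) := Nat.mul_le_mul_left _ hle
      _ = n * ((n + 1) * ∑ i ∈ J, f i) := by ring

/-- Determining blocks of a pattern of equalities. -/
lemma exists_determining {k D p : ℕ} (hp : p.Prime) (hDp : D + 2 ≤ p) (hpk : p ≤ k)
    (π : Fin k → Fin k) (hm : 2 ≤ (univ.image π).card) :
    ∃ J ⊆ univ.image π, 1 ≤ J.card ∧
      (J.card - 1) * (k + D) ≤ 2 * D * ((univ.image π).card - 1) ∧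
      ∀ d : ℕ → ℤ, (∀ j, j + D + 1 < k → (Δ_[1])^[D + 1] d j = 0) →
        (∀ i i' : Fin k, π i = π i' → d i = d i') →
        (∀ i : Fin k, π i ∈ J → d i = 0) → ∀ j < k, d j = 0 := by
  classical
  set I := univ.image π with hI
  set m := I.card with hmd
  set fib : Fin k → ℕ := fun b => (univ.filter (fun i => π i = b)).card with hfib
  have hk0 : 0 < k := lt_of_lt_of_le hp.pos hpk
  have hsum : ∑ b ∈ I, fib b = k := by
    rw [← card_eq_sum_card_image]; simp
  set t := min (m - 1) (D * m / k + 1) with ht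
  have hdiv := Nat.div_add_mod (D * m) k
  have hmod := Nat.mod_lt (D * m) hk0
  have ht1 : t ≤ m - 1 := min_le_left _ _
  have ht2 : t ≤ D * m / k + 1 := min_le_right _ _
  have ht3 : 1 ≤ t := le_min (by omega) (Nat.le_add_left 1 _)
  obtain ⟨J, hJI, hJc, hle⟩ := exists_heavy_subset fib m I rfl t (by omega)
  refine ⟨J, hJI, by omega, ?_, ?_⟩
  · rw [hJc]
    obtain ⟨u, hu⟩ : ∃ u, t = u + 1 := ⟨t - 1, by omega⟩
    obtain ⟨l, hl⟩ : ∃ l, m = l + 2 := ⟨m - 2, by omega⟩
    have ha : u ≤ l := by omega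
    have hb : u * k ≤ D * m := by
      calc u * k ≤ (D * m / k) * k := Nat.mul_le_mul_right _ (by omega)
        _ ≤ D * m := Nat.div_mul_le_self _ _
    rw [hu, hl, Nat.add_sub_cancel, show l + 2 - 1 = l + 1 by omega]
    rw [hl] at hb
    nlinarith
  intro d hrec hconst hJ0
  rcases le_or_gt (D * m / k + 1) (m - 1) with hcase | hcase
  · set Z := (univ.filter (fun i : Fin k => π i ∈ J)).image Fin.val with hZ
    refine eq_zero_of_many_zeros d hrec Z ?_ ?_ ?_
    · intro j hj
      obtain ⟨i, -, rfl⟩ := Finset.mem_image.mp hj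
      exact mem_range.mpr i.isLt
    · have hZc : Z.card = ∑ b ∈ J, fib b := by
        rw [hZ, card_image_of_injective _ Fin.val_injective,
          card_eq_sum_card_fiberwise (s := univ.filter (fun i : Fin k => π i ∈ J)) (f := π)
            (t := J) (fun i hi => (mem_filter.mp hi).2)]
        refine Finset.sum_congr rfl (fun b hb => ?_)
        rw [hfib]
        congr 1
        ext i
        simp only [mem_filter, mem_univ, true_and]
        exact ⟨fun h => h.2, fun h => ⟨h ▸ hb, h⟩⟩
      rw [hZc]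
      have htv : t = D * m / k + 1 := min_eq_right hcase
      rw [hsum, htv] at hle
      by_contra hcon
      push Not at hcon
      have h3 := Nat.mul_le_mul_left m hcon
      rw [Nat.mul_comm m D] at h3
      rw [Nat.add_mul, Nat.mul_comm (D * m / k) k, one_mul] at hle
      omega
    · intro j hj
      obtain ⟨i, hi, rfl⟩ := Finset.mem_image.mp hj
      exact hJ0 i (mem_filter.mp hi).2
  · have htv : t = m - 1 := min_eq_left (by omega)
    have hc1 : (I \ J).card = 1 := by
      rw [card_sdiff_of_subset hJI, hJc, htv]; omega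
    obtain ⟨b, hb⟩ := card_eq_one.mp hc1
    have hmem : ∀ i : Fin k, π i ∈ J ∨ π i = b := fun i => by
      by_cases h : π i ∈ J
      · exact Or.inl h
      · refine Or.inr (mem_singleton.mp (hb ▸ mem_sdiff.mpr ⟨?_, h⟩))
        exact mem_image.mpr ⟨i, mem_univ _, rfl⟩
    intro j hj
    by_contra hne
    obtain ⟨i₀, hi₀⟩ : ∃ i₀ : Fin k, π i₀ ∈ J := by
      obtain ⟨c, hc⟩ := card_pos.mp (show 0 < J.card by omega)
      obtain ⟨i, -, rfl⟩ := mem_image.mp (hJI hc)
      exact ⟨i, hc⟩
    have hπj : π ⟨j, hj⟩ = b := (hmem ⟨j, hj⟩).resolve_left (fun h => hne (hJ0 _ h))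
    set c := d j with hc
    set f : ℕ → ℤ := fun i => if d i = 0 then 0 else 1 with hf
    have hdf : ∀ i < k, d i = c * f i := by
      intro i hi
      by_cases h : d i = 0
      · simp [hf, h]
      · have hπi : π ⟨i, hi⟩ = b := (hmem ⟨i, hi⟩).resolve_left (fun h' => h (hJ0 _ h'))
        have := hconst ⟨i, hi⟩ ⟨j, hj⟩ (hπi.trans hπj.symm)
        simp [hf, h, hc, this]
    have hfrec : ∀ i, i + D + 1 < k → (Δ_[1])^[D + 1] f i = 0 := by
      intro i hi
      have h1 := hrec i hi
      rw [diff_congr (g := c • f) (D + 1) i (fun u _ h2 => by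
          rw [hdf u (by omega), Pi.smul_apply, smul_eq_mul]),
        fwdDiff_iter_const_smul, Pi.smul_apply, smul_eq_mul] at h1
      exact (mul_eq_zero.mp h1).resolve_left hne
    have hf01 : ∀ i < k, f i = 0 ∨ f i = 1 := fun i _ => by
      by_cases h : d i = 0 <;> simp [hf, h]
    have hb' := binary_const hp hDp hpk f hf01 hfrec
    have e1 : f i₀ = 0 := by simp [hf, hJ0 i₀ hi₀]
    have e2 : f j = 1 := by
      have : d j ≠ 0 := hne
      simp [hf, this]
    rw [hb' i₀ i₀.isLt, ← hb' j hj, e2] at e1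
    exact one_ne_zero e1

/-- Random bottom level: a large subset of `range M` free of degree `D` sequences. -/
lemma exists_free {k D p : ℕ} (hp : p.Prime) (hDp : D + 2 ≤ p) (hpk : p ≤ k) (M : ℕ)
    (hM : 1 ≤ M) :
    ∃ V : Finset ℕ, V ⊆ range M ∧ Free k D V ∧
      (M : ℝ) ≤ 2 * (2 * (k : ℝ) ^ k * (M : ℝ) ^ ((2 * D : ℝ) / (k + D)) + 1) * V.card := by
  classical
  have hk0 : 0 < k := lt_of_lt_of_le hp.pos hpk
  have : Nonempty (Fin k) := ⟨⟨0, hk0⟩⟩
  set θ : ℝ := (2 * D : ℝ) / (k + D) with hθ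
  set c : ℝ := 2 * (k : ℝ) ^ k with hc
  have hMR : (1 : ℝ) ≤ M := by exact_mod_cast hM
  have hc1 : 1 ≤ c := by
    have : (1 : ℝ) ≤ (k : ℝ) ^ k := one_le_pow₀ (by exact_mod_cast hk0)
    rw [hc]; linarith
  set q : ℕ := ⌈c * (M : ℝ) ^ θ⌉₊ with hq
  have hθ0 : 0 ≤ θ := by positivity
  have hq1 : (1 : ℝ) ≤ c * (M : ℝ) ^ θ :=
    one_le_mul_of_one_le_of_one_le hc1 (Real.one_le_rpow hMR hθ0)
  have hqle : c * (M : ℝ) ^ θ ≤ q := Nat.le_ceil _
  have hqub : (q : ℝ) ≤ c * (M : ℝ) ^ θ + 1 := (Nat.ceil_lt_add_one (by linarith)).le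
  have hq0 : 0 < q := by exact_mod_cast (lt_of_lt_of_le one_pos (hq1.trans hqle))
  -- bad sequences
  let ext : (Fin k → Fin M) → ℕ → ℤ := fun x j =>
    if h : j < k then ((x ⟨j, h⟩).val : ℤ) else 0
  set bad : Finset (Fin k → Fin M) := univ.filter (fun x =>
    (∀ j, j + D + 1 < k → (Δ_[1])^[D + 1] (ext x) j = 0) ∧ ∃ i, x i ≠ x ⟨0, hk0⟩) with hbad
  let rep : (Fin k → Fin M) → Fin k → Fin k := fun x => Function.invFun x ∘ x
  have hrep : ∀ (x : Fin k → Fin M) (i : Fin k), x (rep x i) = x i := fun x i => Function.invFun_eq (f := x) ⟨i, rfl⟩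
  have hrep' : ∀ (x : Fin k → Fin M) (i i' : Fin k), rep x i = rep x i' ↔ x i = x i' := fun x i i' =>
    ⟨fun h => by rw [← hrep x i, h, hrep x i'], fun h => congrArg (Function.invFun x) h⟩
  have hcard : ∀ x : Fin k → Fin M, (univ.image (rep x)).card = (univ.image x).card := by
    intro x
    refine card_bij (fun b _ => x b) (fun b _ => mem_image_of_mem _ (mem_univ _)) ?_ ?_
    · intro b hb b' hb' he
      obtain ⟨i, -, rfl⟩ := mem_image.mp hb
      obtain ⟨i', -, rfl⟩ := mem_image.mp hb'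
      rw [hrep x i, hrep x i'] at he
      exact (hrep' x i i').mpr he
    · intro v hv
      obtain ⟨i, -, rfl⟩ := mem_image.mp hv
      exact ⟨rep x i, mem_image_of_mem _ (mem_univ _), hrep x i⟩
  let N : (Fin k → Fin M) → ℕ := fun x => q ^ (M - (univ.image x).card)
  have hmge : ∀ x ∈ bad, 2 ≤ (univ.image x).card := by
    intro x hx
    obtain ⟨-, i, hi⟩ := (mem_filter.mp hx).2
    exact one_lt_card.mpr ⟨x i, mem_image_of_mem _ (mem_univ _), x ⟨0, hk0⟩,
      mem_image_of_mem _ (mem_univ _), hi⟩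
  -- one pattern of equalities
  have hclass : ∀ π : Fin k → Fin k,
      ((∑ x ∈ bad.filter (fun x => rep x = π), N x : ℕ) : ℝ) * (c * q)
        ≤ (q : ℝ) ^ M * M := by
    intro π
    rcases (bad.filter (fun x => rep x = π)).eq_empty_or_nonempty with he | ⟨x₀, hx₀⟩
    · simp [he]; positivity
    obtain ⟨hx₀b, rfl⟩ := mem_filter.mp hx₀
    set m := (univ.image x₀).card with hm
    have hm2 : 2 ≤ m := hmge x₀ hx₀b
    obtain ⟨J, -, hJ1, hJb, hJd⟩ := exists_determining hp hDp hpk (rep x₀) (by rw [hcard]; omega)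
    rw [hcard, ← hm] at hJb
    have hNeq : ∀ x ∈ bad.filter (fun x => rep x = rep x₀), N x = q ^ (M - m) := by
      intro x hx
      simp only [N]
      rw [← hcard x, (mem_filter.mp hx).2, hcard]
    have hinj : Set.InjOn (fun x : Fin k → Fin M => fun b : J => x b.1)
        (bad.filter (fun x => rep x = rep x₀)) := by
      intro x hx x' hx' he
      simp only [coe_filter, Set.mem_ofPred_eq, hbad, mem_filter, mem_univ, true_and] at hx hx'
      funext i
      have hd := hJd (fun j => ext x j - ext x' j) ?_ ?_ ?_ i i.isLt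
      · simp only [ext, dif_pos i.isLt, sub_eq_zero, Nat.cast_inj] at hd
        exact Fin.ext hd
      · intro j hj
        have e : (fun j => ext x j - ext x' j) = ext x + (-1 : ℤ) • ext x' := by
          funext u; simp; ring
        rw [e, fwdDiff_iter_add, fwdDiff_iter_const_smul, Pi.add_apply, Pi.smul_apply,
          hx.1.1 j hj, hx'.1.1 j hj]
        simp
      · intro a a' ha
        have e1 : x a = x a' := (hrep' x a a').mp (by rw [hx.2]; exact ha)
        have e2 : x' a = x' a' := (hrep' x' a a').mp (by rw [hx'.2]; exact ha)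
        simp only [ext, dif_pos a.isLt, dif_pos a'.isLt, Fin.eta, e1, e2]
      · intro a ha
        have e1 : x (rep x₀ a) = x a := by rw [← hx.2]; exact hrep x a
        have e2 : x' (rep x₀ a) = x' a := by rw [← hx'.2]; exact hrep x' a
        have e3 : x (rep x₀ a) = x' (rep x₀ a) := congrFun he ⟨rep x₀ a, ha⟩
        simp only [ext, dif_pos a.isLt, Fin.eta, ← e1, ← e2, e3, sub_self]
    have hcardle : (bad.filter (fun x => rep x = rep x₀)).card ≤ M ^ J.card := by
      have := card_le_card_of_injOn (t := (univ : Finset (J → Fin M)))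
        (fun x : Fin k → Fin M => fun b : J => x b.1) (fun _ _ => mem_univ _) hinj
      simpa using this
    have hmM : m ≤ M := by
      have := card_le_univ (univ.image x₀)
      rwa [Fintype.card_fin] at this
    rw [Finset.sum_congr rfl hNeq, Finset.sum_const, smul_eq_mul]
    push_cast
    have key : (M : ℝ) ^ J.card * c * q ≤ (q : ℝ) ^ m * M := by
      obtain ⟨w, hw⟩ : ∃ w, J.card = w + 1 := ⟨J.card - 1, by omega⟩
      obtain ⟨l, hl⟩ : ∃ l, m = l + 2 := ⟨m - 2, by omega⟩
      have hwle : (w : ℝ) ≤ θ * (l + 1 : ℕ) := by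
        rw [hθ, div_mul_eq_mul_div, le_div_iff₀ (by positivity)]
        rw [hw, Nat.add_sub_cancel, hl, show l + 2 - 1 = l + 1 by omega] at hJb
        exact_mod_cast hJb
      have h1 : (M : ℝ) ^ w ≤ ((M : ℝ) ^ θ) ^ (l + 1) := by
        rw [← Real.rpow_natCast (M : ℝ) w, ← Real.rpow_mul_natCast (by positivity)]
        exact Real.rpow_le_rpow_of_exponent_le hMR hwle
      have h2 : (M : ℝ) ^ w * c ≤ (q : ℝ) ^ (l + 1) :=
        calc (M : ℝ) ^ w * c ≤ ((M : ℝ) ^ θ) ^ (l + 1) * c ^ (l + 1) := by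
              refine mul_le_mul h1 (le_self_pow₀ hc1 (by omega)) (by linarith) (by positivity)
          _ = (c * (M : ℝ) ^ θ) ^ (l + 1) := by rw [mul_pow]; ring
          _ ≤ (q : ℝ) ^ (l + 1) := by gcongr
      rw [hw, hl]
      calc (M : ℝ) ^ (w + 1) * c * q = ((M : ℝ) ^ w * c) * (q * M) := by ring
        _ ≤ (q : ℝ) ^ (l + 1) * (q * M) := by gcongr
        _ = (q : ℝ) ^ (l + 2) * M := by ring
    calc ((bad.filter (fun x => rep x = rep x₀)).card : ℝ) * (q : ℝ) ^ (M - m) * (c * q)
        ≤ (M : ℝ) ^ J.card * (q : ℝ) ^ (M - m) * (c * q) := by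
          gcongr
          exact_mod_cast hcardle
      _ = (q : ℝ) ^ (M - m) * ((M : ℝ) ^ J.card * c * q) := by ring
      _ ≤ (q : ℝ) ^ (M - m) * ((q : ℝ) ^ m * M) := by gcongr
      _ = (q : ℝ) ^ M * M := by rw [← mul_assoc, ← pow_add, Nat.sub_add_cancel hmM]
  -- summing over patterns
  set ω0 : Fin q := ⟨0, hq0⟩ with hω0
  have hpred : ∀ S : Finset (Fin M),
      (univ.filter (fun ω : Fin M → Fin q => ∀ a ∈ S, ω a = ω0)).card = q ^ (M - S.card) := by
    intro S
    have e : univ.filter (fun ω : Fin M → Fin q => ∀ a ∈ S, ω a = ω0)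
        = Fintype.piFinset (fun a => if a ∈ S then {ω0} else univ) := by
      ext ω
      simp only [mem_filter, mem_univ, true_and, Fintype.mem_piFinset]
      refine ⟨fun h a => ?_, fun h a ha => by simpa [ha] using h a⟩
      by_cases ha : a ∈ S <;> simp [ha]
      exact h a ha
    rw [e, Fintype.card_piFinset]
    simp only [apply_ite Finset.card, card_singleton, card_univ, Fintype.card_fin,
      Finset.prod_ite, prod_const_one, one_mul, prod_const]
    congr 1
    rw [filter_not, card_sdiff_of_subset (filter_subset _ _)]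
    simp
  have htotal : ((∑ x ∈ bad, N x : ℕ) : ℝ) * (2 * q) ≤ (q : ℝ) ^ M * M := by
    rw [← Finset.sum_fiberwise bad rep N]
    push_cast
    rw [Finset.sum_mul]
    have hcnt : (Fintype.card (Fin k → Fin k) : ℝ) = (k : ℝ) ^ k := by simp
    have hstep : ∀ π : Fin k → Fin k,
        ((∑ x ∈ bad.filter (fun x => rep x = π), N x : ℕ) : ℝ) * (2 * q)
          ≤ (q : ℝ) ^ M * M / (k : ℝ) ^ k := by
      intro π
      rw [le_div_iff₀ (by positivity)]
      refine le_trans (le_of_eq ?_) (hclass π)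
      rw [hc]; ring
    refine (Finset.sum_le_sum (fun π _ => ?_)).trans (le_of_eq ?_)
      (b := ∑ _π : Fin k → Fin k, (q : ℝ) ^ M * M / (k : ℝ) ^ k)
    · have := hstep π
      push_cast at this
      exact this
    · rw [Finset.sum_const, card_univ, nsmul_eq_mul, hcnt]
      field_simp
  -- averaging
  let Z : (Fin M → Fin q) → Finset (Fin M) := fun ω => univ.filter (fun a => ω a = ω0)
  let Bd : (Fin M → Fin q) → Finset (Fin k → Fin M) := fun ω =>
    bad.filter (fun x => ∀ a ∈ univ.image x, ω a = ω0)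
  have hBd : ∑ ω, (Bd ω).card = ∑ x ∈ bad, N x := by
    simp only [Bd, N, card_filter, ← hpred]
    rw [Finset.sum_comm]
  have hZ : ∑ ω, (Z ω).card = M * q ^ (M - 1) := by
    simp only [Z, card_filter]
    rw [Finset.sum_comm]
    have : ∀ a : Fin M, ∑ ω : Fin M → Fin q, (if ω a = ω0 then 1 else 0) = q ^ (M - 1) := by
      intro a
      have h := hpred {a}
      simp only [mem_singleton, forall_eq, card_singleton, card_filter] at h
      exact h
    simp [this]
  obtain ⟨ω, -, hω⟩ : ∃ ω ∈ (univ : Finset (Fin M → Fin q)),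
      (M : ℝ) / (2 * q) ≤ ((Z ω).card : ℝ) - (Bd ω).card := by
    have hne : Nonempty (Fin M → Fin q) := ⟨fun _ => ω0⟩
    refine exists_le_of_sum_le univ_nonempty ?_
    rw [Finset.sum_sub_distrib, ← Nat.cast_sum, ← Nat.cast_sum, hZ, hBd, Finset.sum_const,
      card_univ, nsmul_eq_mul, Fintype.card_pi]
    simp only [Fintype.card_fin, prod_const, card_univ]
    push_cast
    have hpow : (q : ℝ) ^ M = (q : ℝ) ^ (M - 1) * q := by
      rw [← pow_succ]; congr 1; omega
    have hqR : (0 : ℝ) < q := by exact_mod_cast hq0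
    rw [← mul_div_assoc, div_le_iff₀ (by positivity)]
    push_cast at htotal
    have e : (M : ℝ) * (q : ℝ) ^ (M - 1) * (2 * q) = 2 * ((q : ℝ) ^ M * M) := by
      rw [hpow]; ring
    linarith
  set rem := (Bd ω).image (fun x => x ⟨0, hk0⟩) with hrem
  set V := ((Z ω) \ rem).image Fin.val with hV
  refine ⟨V, ?_, ?_, ?_⟩
  · intro v hv
    obtain ⟨a, -, rfl⟩ := mem_image.mp hv
    exact mem_range.mpr a.isLt
  · intro y hy hrec
    by_contra hcon
    push Not at hcon
    obtain ⟨j, hj, hne⟩ := hcon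
    have hmem : ∀ i : Fin k, ∃ a ∈ Z ω \ rem, a.val = y i := fun i =>
      mem_image.mp (hy i i.isLt)
    choose x hx hxe using hmem
    have hxb : x ∈ bad := by
      simp only [hbad, mem_filter, mem_univ, true_and]
      refine ⟨fun u hu => ?_, ⟨j, hj⟩, fun h => hne ?_⟩
      · rw [diff_congr (g := fun t => (y t : ℤ)) (D + 1) u (fun t _ h2 => ?_)]
        · exact hrec u hu
        · simp only [ext, dif_pos (show t < k by omega), hxe]
      · have := congrArg Fin.val h
        rwa [hxe, hxe] at this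
    have hxB : x ∈ Bd ω := by
      refine mem_filter.mpr ⟨hxb, fun a ha => ?_⟩
      obtain ⟨i, -, rfl⟩ := mem_image.mp ha
      exact (mem_filter.mp (mem_sdiff.mp (hx i)).1).2
    exact (mem_sdiff.mp (hx ⟨0, hk0⟩)).2 (mem_image.mpr ⟨x, hxB, rfl⟩)
  · have h1 : (Z ω).card ≤ V.card + (Bd ω).card := by
      rw [hV, card_image_of_injective _ Fin.val_injective]
      have := le_card_sdiff rem (Z ω)
      have := card_image_le (s := Bd ω) (f := fun x => x ⟨0, hk0⟩)
      rw [← hrem] at this
      omega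
    have h1' : ((Z ω).card : ℝ) ≤ V.card + (Bd ω).card := by exact_mod_cast h1
    have hqR : (0 : ℝ) < q := by exact_mod_cast hq0
    rw [div_le_iff₀ (by positivity)] at hω
    calc (M : ℝ) ≤ ((Z ω).card - (Bd ω).card) * (2 * q) := hω
      _ ≤ (V.card : ℝ) * (2 * q) := by
        gcongr
        linarith
      _ ≤ 2 * (c * (M : ℝ) ^ θ + 1) * V.card := by
        have := mul_le_mul_of_nonneg_left hqub (Nat.cast_nonneg (α := ℝ) V.card)
        linarith

/-- The random bottom level as a family. -/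
lemma fam_base {k D p : ℕ} (hp : p.Prime) (hDp : D + 2 ≤ p) (hpk : p ≤ k) :
    Fam 1 ((2 * D : ℝ) / (k + D)) (Free k D) := by
  intro ε hε
  set θ := (2 * D : ℝ) / (k + D) with hθ
  have hk0 : (0 : ℝ) < (k : ℝ) := by
    exact_mod_cast lt_of_lt_of_le hp.pos hpk
  set C : ℝ := 2 * (2 * (k : ℝ) ^ k + 1) with hC
  have hlim : Filter.Tendsto (fun M : ℕ => (M : ℝ) ^ ε) Filter.atTop Filter.atTop :=
    (tendsto_rpow_atTop hε).comp tendsto_natCast_atTop_atTop
  filter_upwards [Filter.eventually_ge_atTop 1,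
    hlim.eventually (Filter.eventually_ge_atTop C)] with M hM hMC
  obtain ⟨V, hVs, hVf, hVc⟩ := exists_free hp hDp hpk M hM
  refine ⟨V, hVs, hVf, ?_⟩
  have hMR : (1 : ℝ) ≤ M := by exact_mod_cast hM
  have hM0 : (0 : ℝ) < M := by linarith
  have hT : (1 : ℝ) ≤ (M : ℝ) ^ θ := Real.one_le_rpow hMR (by positivity)
  have h2 : (M : ℝ) ≤ (M : ℝ) ^ (θ + ε) * V.card := by
    refine hVc.trans ?_
    gcongr
    rw [Real.rpow_add hM0, hC] at *
    calc 2 * (2 * (k : ℝ) ^ k * (M : ℝ) ^ θ + 1)
        ≤ (M : ℝ) ^ θ * (2 * (2 * (k : ℝ) ^ k + 1)) := by nlinarith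
      _ ≤ (M : ℝ) ^ θ * (M : ℝ) ^ ε := by gcongr
  have e : Real.exp (-(((1 : ℕ) : ℝ) * θ ^ ((1 : ℝ) / (1 : ℕ)) + ε)
      * Real.log M ^ ((1 : ℝ) / (1 : ℕ))) = ((M : ℝ) ^ (θ + ε))⁻¹ := by
    rw [Real.rpow_def_of_pos hM0, ← Real.exp_neg]
    congr 1
    norm_num
    ring
  rw [e, ← div_eq_mul_inv, div_le_iff₀ (by positivity)]
  linarith

end Vale.Agent.P057APFree
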