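import Mathlib

/-!
# Forward differences, polynomial interpolation and parity-split polynomials

Helper lemmas for the lower bound on progression-free sets (P057).
-/

namespace Vale.Agent.P057APFree

open Finset Polynomial fwdDiff

/-- A linear functional form of the iterated difference of a finite combination. -/
lemma diff_sum_mul {R ι : Type*} [CommRing R] (s : Finset ι) (f : ι → ℕ → R) (c : ι → R)
    (m j : ℕ) :
    (Δ_[1])^[m] (fun t => ∑ i ∈ s, f i t * c i) j = ∑ i ∈ s, (Δ_[1])^[m] (f i) j * c i := by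
  induction m generalizing j with
  | zero => simp
  | succ m ih =>
    simp only [Function.iterate_succ_apply']
    simp only [fwdDiff, ih, sub_mul, Finset.sum_sub_distrib]

lemma diff_shift {R : Type*} [CommRing R] (f : ℕ → R) (m j : ℕ) :
    (Δ_[1])^[m] (fun t => f (t + 1)) j = (Δ_[1])^[m] f (j + 1) :=
  fwdDiff_iter_comp_add 1 f 1 m j

lemma diff_cast (f : ℕ → ℤ) (m j : ℕ) :
    (Δ_[1])^[m] (fun t => (f t : ℝ)) j = (((Δ_[1])^[m] f j : ℤ) : ℝ) := by
  induction m generalizing j with
  | zero => simp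
  | succ m ih =>
    simp only [Function.iterate_succ_apply']
    simp only [fwdDiff, ih]
    push_cast
    rfl

lemma diff_congr {R : Type*} [CommRing R] {f g : ℕ → R} (m j : ℕ)
    (h : ∀ t, j ≤ t → t ≤ j + m → f t = g t) :
    (Δ_[1])^[m] f j = (Δ_[1])^[m] g j := by
  induction m generalizing j with
  | zero => simpa using h j le_rfl (by omega)
  | succ m ih =>
    simp only [Function.iterate_succ_apply']
    simp only [fwdDiff]
    rw [ih (j + 1) (fun t h1 h2 => h t (by omega) (by omega)),
      ih j (fun t h1 h2 => h t h1 (by omega))]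

lemma diff_abs_le (f : ℕ → ℤ) (b : ℤ) (m j : ℕ)
    (h : ∀ t, j ≤ t → t ≤ j + m → |f t| ≤ b) :
    |(Δ_[1])^[m] f j| ≤ 2 ^ m * b := by
  induction m generalizing j with
  | zero => simpa using h j le_rfl (by omega)
  | succ m ih =>
    simp only [Function.iterate_succ_apply']
    simp only [fwdDiff]
    have h1 := ih (j + 1) (fun t h1 h2 => h t (by omega) (by omega))
    have h2 := ih j (fun t h1 h2 => h t h1 (by omega))
    calc |(Δ_[1])^[m] f (j + 1) - (Δ_[1])^[m] f j|
        ≤ |(Δ_[1])^[m] f (j + 1)| + |(Δ_[1])^[m] f j| := abs_sub _ _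
      _ ≤ 2 ^ m * b + 2 ^ m * b := add_le_add h1 h2
      _ = 2 ^ (m + 1) * b := by ring

lemma diff_digit_bound (f : ℕ → ℤ) (W : ℤ) (E j : ℕ)
    (h : ∀ t, j ≤ t → t ≤ j + E + 1 → 0 ≤ f t ∧ f t ≤ W) :
    |(Δ_[1])^[E + 1] f j| ≤ 2 ^ E * W := by
  rw [Function.iterate_succ_apply]
  refine diff_abs_le _ W E j (fun t h1 h2 => ?_)
  have a := h t h1 (by omega)
  have b := h (t + 1) (by omega) (by omega)
  simp only [fwdDiff]
  rw [abs_le]
  constructor <;> linarith

/-- The paired difference `Δ^{E+1} f j + Δ^{E+1} f (j+1)` has norm at most `3 * 2^(E-2) * W`. -/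
lemma diff_pair_bound (f : ℕ → ℤ) (W : ℤ) (E j : ℕ) (hE : 2 ≤ E)
    (h : ∀ t, j ≤ t → t ≤ j + E + 2 → 0 ≤ f t ∧ f t ≤ W) :
    |(Δ_[1])^[E + 1] f j + (Δ_[1])^[E + 1] f (j + 1)| ≤ 3 * 2 ^ (E - 2) * W := by
  obtain ⟨m, rfl⟩ : ∃ m, E = m + 2 := ⟨E - 2, by omega⟩
  have e : m + 2 + 1 = m + 3 := rfl
  have key : (Δ_[1])^[m + 2 + 1] f j + (Δ_[1])^[m + 2 + 1] f (j + 1)
      = (Δ_[1])^[m] (fun t => (Δ_[1])^[3] f t + (Δ_[1])^[3] f (t + 1)) j := by
    rw [e, Function.iterate_add_apply, ← diff_shift ((Δ_[1])^[3] f) m j]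
    exact (congrFun (fwdDiff_iter_add 1 ((Δ_[1])^[3] f) (fun t => (Δ_[1])^[3] f (t + 1)) m) j).symm
  rw [key]
  refine (diff_abs_le _ (3 * W) m j (fun t h1 h2 => ?_)).trans (le_of_eq ?_)
  · have a0 := h t h1 (by omega)
    have a1 := h (t + 1) (by omega) (by omega)
    have a2 := h (t + 2) (by omega) (by omega)
    have a3 := h (t + 3) (by omega) (by omega)
    have a4 := h (t + 4) (by omega) (by omega)
    have expand : (Δ_[1])^[3] f t + (Δ_[1])^[3] f (t + 1)
        = f (t + 4) - 2 * f (t + 3) + 2 * f (t + 1) - f t := by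
      simp only [Function.iterate_succ_apply', Function.iterate_zero_apply, fwdDiff, add_assoc]
      norm_num
      ring
    rw [expand, abs_le]
    constructor <;> linarith
  · simp
    ring

/-- The first difference of a polynomial has smaller degree. -/
lemma degree_taylor_sub_lt (P : ℝ[X]) (b : ℕ) (h : P.degree < ((b + 1 : ℕ) : WithBot ℕ)) :
    (taylor 1 P - P).degree < (b : WithBot ℕ) := by
  by_cases hP : P = 0
  · subst hP
    simp
  have hn : P.natDegree < b + 1 := (natDegree_lt_iff_degree_lt hP).mpr h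
  refine lt_of_lt_of_le (degree_sub_lt_left (degree_taylor P 1) ?_ (leadingCoeff_taylor (r := 1) (f := P))) ?_
  · exact (not_congr (taylor_eq_zero (r := (1:ℝ)) (f := P))).mpr hP
  · rw [degree_taylor, degree_eq_natDegree hP]
    exact_mod_cast Nat.lt_succ_iff.mp hn

lemma degree_lt_zero_eq (P : ℝ[X]) (h : P.degree < ((0 : ℕ) : WithBot ℕ)) : P = 0 := by
  by_contra hP
  rw [degree_eq_natDegree hP] at h
  exact Nat.not_lt_zero _ (WithBot.coe_lt_coe.mp h)

lemma diff_poly_zero (m : ℕ) (P : ℝ[X]) (h : P.degree < (m : WithBot ℕ)) (j : ℕ) :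
    (Δ_[1])^[m] (fun t : ℕ => P.eval (t : ℝ)) j = 0 := by
  induction m generalizing P with
  | zero => simp [degree_lt_zero_eq P h]
  | succ m ih =>
    rw [Function.iterate_succ_apply]
    have : Δ_[1] (fun t : ℕ => P.eval (t : ℝ))
        = fun t : ℕ => (taylor 1 P - P).eval (t : ℝ) := by
      funext t
      simp [fwdDiff, taylor_eval]
    rw [this]
    exact ih _ (degree_taylor_sub_lt P m h)

/-- A function whose first `m` values from `j` vanish: its `m`-th difference is the next value. -/
lemma diff_of_zero {R : Type*} [CommRing R] (d : ℕ → R) (m j : ℕ)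
    (h : ∀ t, j ≤ t → t < j + m → d t = 0) :
    (Δ_[1])^[m] d j = d (j + m) := by
  induction m generalizing j with
  | zero => simp
  | succ m ih =>
    simp only [Function.iterate_succ_apply']
    simp only [fwdDiff]
    rw [ih (j + 1) (fun t h1 h2 => h t (by omega) (by omega)),
      ih j (fun t h1 h2 => h t h1 (by omega)), h (j + m) (by omega) (by omega), sub_zero]
    congr 1
    omega

/-- A sequence with vanishing `(E+1)`-th differences on a window is a polynomial there. -/
lemma exists_poly (f : ℕ → ℝ) (k E : ℕ)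
    (h : ∀ j, j + E + 1 < k → (Δ_[1])^[E + 1] f j = 0) :
    ∃ P : ℝ[X], P.natDegree ≤ E ∧ ∀ j < k, P.eval (j : ℝ) = f j := by
  classical
  have hinj : Set.InjOn (fun t : ℕ => (t : ℝ)) (range (E + 1)) :=
    fun a _ b _ hab => Nat.cast_injective hab
  set P := Lagrange.interpolate (range (E + 1)) (fun t : ℕ => (t : ℝ)) f with hPdef
  have hdeg : P.degree < ((E + 1 : ℕ) : WithBot ℕ) := by
    have := Lagrange.degree_interpolate_lt (s := range (E + 1)) f hinj
    simpa [hPdef] using this
  refine ⟨P, ?_, ?_⟩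
  · by_cases hP : P = 0
    · simp [hP]
    · exact Nat.lt_succ_iff.mp ((natDegree_lt_iff_degree_lt hP).mpr hdeg)
  intro j
  induction j using Nat.strong_induction_on with
  | _ j ih =>
    intro hj
    by_cases hjE : j < E + 1
    · exact Lagrange.eval_interpolate_at_node (v := fun t : ℕ => (t : ℝ)) f hinj
        (mem_range.mpr hjE)
    obtain ⟨i, rfl⟩ : ∃ i, j = i + (E + 1) := ⟨j - (E + 1), by omega⟩
    have hz := diff_of_zero (fun t : ℕ => P.eval (t : ℝ) - f t) (E + 1) i
      (fun t h1 h2 => sub_eq_zero.mpr (ih t h2 (by omega)))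
    have : (Δ_[1])^[E + 1] ((fun t : ℕ => P.eval (t : ℝ)) - f) i = 0 := by
      have e : (fun t : ℕ => P.eval (t : ℝ)) - f
          = (fun t : ℕ => P.eval (t : ℝ)) + (-1 : ℤ) • f := by
        funext t
        simp [sub_eq_add_neg]
      rw [e, fwdDiff_iter_add, fwdDiff_iter_const_smul]
      rw [Pi.add_apply, Pi.smul_apply, diff_poly_zero (E + 1) P hdeg i, h i (by omega), smul_zero,
        add_zero]
    rw [show ((fun t : ℕ => P.eval (t : ℝ)) - f)
      = (fun t : ℕ => P.eval (t : ℝ) - f t) from rfl, hz] at this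
    exact sub_eq_zero.mp this

/-- If `S(j) + (-1)^j D(j) = 0` on a window longer than `deg S + deg D + 1`, then `S = 0`. -/
lemma parity_vanish (b : ℕ) : ∀ (k a : ℕ) (S D : ℝ[X]), S.natDegree ≤ a →
    D.degree < (b : WithBot ℕ) → a + b < k →
    (∀ j < k, S.eval (j : ℝ) + (-1 : ℝ) ^ j * D.eval (j : ℝ) = 0) → S = 0 := by
  induction b with
  | zero =>
    intro k a S D hS hD hk h
    have hD0 := degree_lt_zero_eq D hD
    refine eq_zero_of_natDegree_lt_card_of_eval_eq_zero' S
      ((range k).image (fun t : ℕ => (t : ℝ))) ?_ ?_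
    · intro x hx
      obtain ⟨j, hj, rfl⟩ := Finset.mem_image.mp hx
      simpa [hD0] using h j (mem_range.mp hj)
    · rw [card_image_of_injective _ Nat.cast_injective, card_range]
      omega
  | succ b ih =>
    intro k a S D hS hD hk h
    have h' : S + taylor 1 S = 0 := by
      refine ih (k - 1) a _ (D - taylor 1 D) ?_ ?_ (by omega) ?_
      · refine (natDegree_add_le _ _).trans (max_le hS ?_)
        rw [natDegree_taylor]
        exact hS
      · rw [← degree_neg, neg_sub]
        exact degree_taylor_sub_lt D b hD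
      · intro j hj
        have e1 := h j (by omega)
        have e2 := h (j + 1) (by omega)
        simp only [eval_add, eval_sub, taylor_eval]
        push_cast at e2
        rw [pow_succ] at e2
        linear_combination e1 + e2
    have hc : (S + taylor 1 S).coeff S.natDegree = 0 := by rw [h']; simp
    rw [coeff_add, coeff_taylor_natDegree, coeff_natDegree] at hc
    exact leadingCoeff_eq_zero.mp (by linarith)

/-- A sum of squares of real polynomials is constant only if each of them is constant. -/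
lemma natDegree_eq_zero_of_sum_sq {ι : Type*} [Fintype ι] (P : ι → ℝ[X]) (c : ℝ)
    (h : ∑ i, P i ^ 2 = C c) (i : ι) : (P i).natDegree = 0 := by
  set d := univ.sup (fun i => (P i).natDegree) with hd
  have hle : ∀ i, (P i).natDegree ≤ d := fun i => le_sup (f := fun i => (P i).natDegree)
    (mem_univ i)
  rcases Nat.eq_zero_or_pos d with hd0 | hdpos
  · exact Nat.le_zero.mp (hd0 ▸ hle i)
  exfalso
  have hc : (∑ i, P i ^ 2).coeff (d + d) = 0 := by
    rw [h, coeff_C, if_neg (by omega)]
  simp only [finsetSum_coeff, sq] at hc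
  simp only [fun i => coeff_mul_add_eq_of_natDegree_le (hle i) (hle i)] at hc
  obtain ⟨i₀, -, hi₀⟩ := exists_mem_eq_sup univ ⟨i, mem_univ i⟩ (fun i => (P i).natDegree)
  have hz := (Finset.sum_eq_zero_iff_of_nonneg (fun i _ => mul_self_nonneg _)).mp hc i₀
    (mem_univ i₀)
  have hne : P i₀ ≠ 0 := by
    intro h0
    rw [h0, natDegree_zero] at hi₀
    omega
  have := leadingCoeff_ne_zero.mpr hne
  rw [← coeff_natDegree, ← hi₀] at this
  exact this (mul_self_eq_zero.mp hz)

end Vale.Agent.P057APFree
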