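import Vale.Agent.P057APFree.Diff

/-!
# One level of the Rankin-type construction (P057)

Digit vectors in base `Q` whose sum of squares lies in a translate of a set `V`.
-/

namespace Vale.Agent.P057APFree

open Finset Polynomial fwdDiff

/-- `A` contains no nonconstant `k`-term sequence with vanishing `(E+1)`-th differences. -/
def Free (k E : ℕ) (A : Finset ℕ) : Prop :=
  ∀ x : ℕ → ℕ, (∀ j < k, x j ∈ A) →
    (∀ j, j + E + 1 < k → (Δ_[1])^[E + 1] (fun t => (x t : ℤ)) j = 0) →
    ∀ j < k, x j = x 0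

/-- The digit condition of one level: digit vectors below `B` that satisfy the recurrence in
base `Q` and have shifted square sums in `V + M` form a constant sequence. -/
def Lifts (k E D Q B M : ℕ) (V : Finset ℕ) : Prop :=
  ∀ (r : ℕ → Fin D → ℕ), (∀ j < k, ∀ i, r j i < B) →
    (∀ j, j + E + 1 < k →
      ∑ i, (Δ_[1])^[E + 1] (fun t => (r t i : ℤ)) j * (Q : ℤ) ^ (i : ℕ) = 0) →
    ∀ s : ℕ, (∀ j < k, ∃ v ∈ V, ∑ i, r j i ^ 2 + s = v + M) →
    ∀ j < k, r j = r 0

/-- A combination of powers of `Q` with coefficients smaller than `Q` vanishes only trivially. -/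
lemma digits_zero : ∀ (D Q : ℕ) (c : Fin D → ℤ), (∀ i, |c i| < (Q : ℤ)) →
    ∑ i, c i * (Q : ℤ) ^ (i : ℕ) = 0 → ∀ i, c i = 0 := by
  intro D
  induction D with
  | zero => exact fun Q c _ _ i => i.elim0
  | succ D ih =>
    intro Q c hc hsum
    rw [Fin.sum_univ_succ] at hsum
    simp only [Fin.val_zero, pow_zero, mul_one, Fin.val_succ, pow_succ, ← mul_assoc,
      ← Finset.sum_mul] at hsum
    have h0 : c 0 = 0 := by
      refine Int.eq_zero_of_abs_lt_dvd ?_ (hc 0)
      exact ⟨-(∑ i : Fin D, c i.succ * (Q : ℤ) ^ (i : ℕ)), by linear_combination hsum⟩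
    rw [h0, zero_add] at hsum
    have hQ : (Q : ℤ) ≠ 0 := by
      have := (abs_nonneg _).trans_lt (hc 0)
      omega
    have hrest := ih Q (fun i => c i.succ) (fun i => hc i.succ)
      ((mul_eq_zero.mp hsum).resolve_right hQ)
    intro i
    cases i using Fin.cases with
    | zero => exact h0
    | succ i => exact hrest i

/-- Lift through a level using a set with no progression of degree `2E`. -/
lemma lifts_generic (k E D Q B M : ℕ) (V : Finset ℕ) (hk : 2 * E < k)
    (hP : 2 ^ E * (B - 1) < Q) (hV : Free k (2 * E) V) : Lifts k E D Q B M V := by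
  intro r hr hrec s hs
  classical
  have hzero : ∀ i j, j + E + 1 < k → (Δ_[1])^[E + 1] (fun t => (r t i : ℤ)) j = 0 := by
    intro i j hj
    refine digits_zero D Q (fun i => (Δ_[1])^[E + 1] (fun t => (r t i : ℤ)) j) ?_ (hrec j hj) i
    intro i
    refine lt_of_le_of_lt (diff_digit_bound _ ((B - 1 : ℕ) : ℤ) E j (fun t h1 h2 => ?_)) ?_
    · have := hr t (by omega) i
      constructor <;> omega
    · exact_mod_cast hP
  have hpoly : ∀ i, ∃ P : ℝ[X], P.natDegree ≤ E ∧ ∀ j < k, P.eval (j : ℝ) = (r j i : ℝ) := by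
    intro i
    refine exists_poly _ k E (fun j hj => ?_)
    have := diff_cast (fun t => (r t i : ℤ)) (E + 1) j
    simp only [Int.cast_natCast] at this
    rw [this, hzero i j hj, Int.cast_zero]
  choose P hPd hPe using hpoly
  set x : ℕ → ℕ := fun j => ∑ i, r j i ^ 2 + s - M with hx
  have hxm : ∀ j < k, x j ∈ V ∧ ∑ i, r j i ^ 2 + s = x j + M := by
    intro j hj
    obtain ⟨v, hv, he⟩ := hs j hj
    have : x j = v := by simp [hx, he]
    rw [this]
    exact ⟨hv, he⟩
  set G : ℝ[X] := ∑ i, P i ^ 2 + C ((s : ℝ) - M) with hG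
  have hGd : G.natDegree ≤ 2 * E := by
    refine natDegree_add_le_of_degree_le (natDegree_sum_le_of_forall_le _ _ (fun i _ => ?_)) ?_
    · exact natDegree_pow_le.trans (Nat.mul_le_mul_left 2 (hPd i))
    · rw [natDegree_C]
      exact Nat.zero_le _
  have hGe : ∀ j < k, G.eval (j : ℝ) = (x j : ℝ) := by
    intro j hj
    have h1 := congrArg (fun n : ℕ => (n : ℝ)) (hxm j hj).2
    push_cast at h1
    simp [hG, eval_finsetSum, hPe _ j hj]
    linarith
  have hdiff : ∀ j, j + 2 * E + 1 < k → (Δ_[1])^[2 * E + 1] (fun t => (x t : ℤ)) j = 0 := by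
    intro j hj
    have h1 := diff_cast (fun t => (x t : ℤ)) (2 * E + 1) j
    simp only [Int.cast_natCast] at h1
    have h2 : (Δ_[1])^[2 * E + 1] (fun t => (x t : ℝ)) j = 0 := by
      rw [diff_congr (g := fun t : ℕ => G.eval (t : ℝ)) _ _
        (fun t h1 h2 => (hGe t (by omega)).symm)]
      refine diff_poly_zero _ _ ?_ j
      exact lt_of_le_of_lt degree_le_natDegree (by exact_mod_cast Nat.lt_succ_iff.mpr hGd)
    rw [h2] at h1
    exact_mod_cast h1.symm
  have hconst := hV x (fun j hj => (hxm j hj).1) hdiff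
  have hGC : G - C (x 0 : ℝ) = 0 := by
    refine eq_zero_of_natDegree_lt_card_of_eval_eq_zero' _
      ((range k).image (fun t : ℕ => (t : ℝ))) ?_ ?_
    · intro y hy
      obtain ⟨j, hj, rfl⟩ := Finset.mem_image.mp hy
      rw [eval_sub, eval_C, hGe j (mem_range.mp hj), hconst j (mem_range.mp hj), sub_self]
    · rw [card_image_of_injective _ Nat.cast_injective, card_range, natDegree_sub_C]
      omega
  have hsq : ∑ i, P i ^ 2 = C ((x 0 : ℝ) - ((s : ℝ) - M)) := by
    rw [map_sub, ← sub_eq_zero.mp hGC, hG]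
    ring
  intro j hj
  funext i
  obtain ⟨p, hp⟩ := natDegree_eq_zero.mp (natDegree_eq_zero_of_sum_sq P _ hsq i)
  have e1 := hPe i j hj
  have e2 := hPe i 0 (by omega)
  rw [← hp, eval_C] at e1 e2
  exact_mod_cast e1.symm.trans e2

/-- Lift through the top level: a single value, with period-two patterns ruled out. -/
lemma lifts_top (k E D Q B M : ℕ) (V : Finset ℕ) (hE : 2 ≤ E) (hk : 3 * E + 2 ≤ k)
    (hP : 3 * 2 ^ (E - 2) * (B - 1) < Q) (hV : V.card ≤ 1) : Lifts k E D Q B M V := by
  intro r hr hrec s hs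
  classical
  set e : Fin D → ℕ → ℤ := fun i => (Δ_[1])^[E + 1] (fun t => (r t i : ℤ)) with he
  have hpair : ∀ i j, j + E + 2 < k → e i j + e i (j + 1) = 0 := by
    intro i j hj
    refine digits_zero D Q (fun i => e i j + e i (j + 1)) ?_ ?_ i
    · intro i
      refine lt_of_le_of_lt
        (diff_pair_bound _ ((B - 1 : ℕ) : ℤ) E j hE (fun t h1 h2 => ?_)) ?_
      · have := hr t (by omega) i
        constructor <;> omega
      · exact_mod_cast hP
    · simp only [add_mul, Finset.sum_add_distrib, he]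
      rw [hrec j (by omega), hrec (j + 1) (by omega), add_zero]
  have halt : ∀ i j, j + E + 1 < k → e i j = (-1) ^ j * e i 0 := by
    intro i j
    induction j with
    | zero => simp
    | succ j ih =>
      intro hj
      have h1 := hpair i j (by omega)
      rw [ih (by omega)] at h1
      rw [pow_succ]
      linear_combination h1
  set h : Fin D → ℝ := fun i => (e i 0 : ℝ) / (-2) ^ (E + 1) with hh
  have hsign : ∀ m j : ℕ, (Δ_[1])^[m] (fun t : ℕ => (-1 : ℝ) ^ t) j = (-2) ^ m * (-1) ^ j := by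
    intro m
    induction m with
    | zero => simp
    | succ m ih =>
      intro j
      simp only [Function.iterate_succ_apply']
      simp only [fwdDiff, ih, pow_succ]
      ring
  have hpoly : ∀ i, ∃ P : ℝ[X], P.natDegree ≤ E ∧
      ∀ j < k, P.eval (j : ℝ) = (r j i : ℝ) - h i * (-1) ^ j := by
    intro i
    refine exists_poly _ k E (fun j hj => ?_)
    have e1 : (fun t => (r t i : ℝ) - h i * (-1) ^ t)
        = (fun t => (r t i : ℝ)) + (-h i) • (fun t : ℕ => (-1 : ℝ) ^ t) := by
      funext t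
      simp [sub_eq_add_neg]
    have e2 := diff_cast (fun t => (r t i : ℤ)) (E + 1) j
    simp only [Int.cast_natCast] at e2
    have e3 : ((-2 : ℝ)) ^ (E + 1) ≠ 0 := pow_ne_zero _ (by norm_num)
    rw [e1, fwdDiff_iter_add, fwdDiff_iter_const_smul, Pi.add_apply, Pi.smul_apply, hsign, e2,
      show (Δ_[1])^[E + 1] (fun t => (r t i : ℤ)) j = e i j from rfl, halt i j hj, smul_eq_mul, hh]
    push_cast
    field_simp
    ring
  choose P hPd hPe using hpoly
  have hr' : ∀ i, ∀ j < k, (r j i : ℝ) = (P i).eval (j : ℝ) + h i * (-1) ^ j := by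
    intro i j hj
    linarith [hPe i j hj]
  obtain ⟨v₀, hv₀, -⟩ := hs 0 (by omega)
  have hall : ∀ j < k, ∑ i, (r j i : ℝ) ^ 2 + s = v₀ + M := by
    intro j hj
    obtain ⟨v, hv, hjv⟩ := hs j hj
    rw [Finset.card_le_one.mp hV v hv v₀ hv₀] at hjv
    exact_mod_cast hjv
  set S : ℝ[X] := ∑ i, P i ^ 2 + C (∑ i, h i ^ 2 + (s : ℝ) - v₀ - M) with hS
  set T : ℝ[X] := ∑ i, C (2 * h i) * P i with hT
  have hS0 : S = 0 := by
    refine parity_vanish (E + 1) k (2 * E) S T ?_ ?_ (by omega) ?_
    · refine natDegree_add_le_of_degree_le (natDegree_sum_le_of_forall_le _ _ (fun i _ => ?_)) ?_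
      · exact natDegree_pow_le.trans (Nat.mul_le_mul_left 2 (hPd i))
      · rw [natDegree_C]
        exact Nat.zero_le _
    · refine lt_of_le_of_lt degree_le_natDegree
        (WithBot.coe_lt_coe.mpr (Nat.lt_succ_iff.mpr ?_))
      refine natDegree_sum_le_of_forall_le _ _ (fun i _ => ?_)
      exact (natDegree_C_mul_le _ _).trans (hPd i)
    · intro j hj
      have hsum := hall j hj
      have hexp : ∀ i, (r j i : ℝ) ^ 2 = (P i).eval (j : ℝ) ^ 2
          + (-1) ^ j * (2 * h i * (P i).eval (j : ℝ)) + h i ^ 2 := by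
        intro i
        have hone : ((-1 : ℝ) ^ j) ^ 2 = 1 := by rw [← pow_mul, pow_mul']; simp
        rw [hr' i j hj]
        linear_combination (h i ^ 2) * hone
      simp only [hexp, Finset.sum_add_distrib, ← Finset.mul_sum] at hsum
      simp only [hS, hT, eval_add, eval_finsetSum, eval_pow, eval_C, eval_mul]
      linarith
  have hsq : ∑ i, P i ^ 2 = C (-(∑ i, h i ^ 2 + (s : ℝ) - v₀ - M)) := by
    rw [hS] at hS0
    rw [map_neg]
    exact eq_neg_of_add_eq_zero_left hS0
  have hPc : ∀ i, ∀ j : ℕ, (P i).eval (j : ℝ) = (P i).eval 0 := by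
    intro i j
    obtain ⟨p, hp⟩ := natDegree_eq_zero.mp (natDegree_eq_zero_of_sum_sq P _ hsq i)
    rw [← hp, eval_C, eval_C]
  have h01 : ∀ i, (r 0 i : ℝ) - r 1 i = 2 * h i := by
    intro i
    rw [hr' i 0 (by omega), hr' i 1 (by omega), hPc i 0, hPc i 1]
    ring
  have hhz : ∀ i, h i = 0 := by
    have hd : ∀ i, (r 0 i : ℤ) - r 1 i = 0 := by
      refine digits_zero D Q _ (fun i => ?_) ?_
      · have h1 := hr 0 (by omega) i
        have h2 := hr 1 (by omega) i
        have h3 : B - 1 < Q := lt_of_le_of_lt (Nat.le_mul_of_pos_left _ (by positivity)) hP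
        rw [abs_lt]
        constructor <;> omega
      · have hrec0 : ∑ i, (e i 0 : ℝ) * (Q : ℝ) ^ (i : ℕ) = 0 := by
          exact_mod_cast hrec 0 (by omega)
        have hkey : ∀ i, (e i 0 : ℝ) * (Q : ℝ) ^ (i : ℕ)
            = ((-2) ^ (E + 1) / 2) * (((r 0 i : ℝ) - r 1 i) * (Q : ℝ) ^ (i : ℕ)) := by
          intro i
          have e3 : ((-2 : ℝ)) ^ (E + 1) ≠ 0 := pow_ne_zero _ (by norm_num)
          rw [h01 i, hh]
          field_simp
        simp only [hkey, ← Finset.mul_sum] at hrec0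
        have hne : ((-2 : ℝ)) ^ (E + 1) / 2 ≠ 0 :=
          div_ne_zero (pow_ne_zero _ (by norm_num)) two_ne_zero
        exact_mod_cast (mul_eq_zero.mp hrec0).resolve_left hne
    intro i
    have h1 : (r 0 i : ℝ) - r 1 i = 0 := by exact_mod_cast hd i
    linarith [h01 i]
  intro j hj
  funext i
  have e1 := hr' i j hj
  have e2 := hr' i 0 (by omega)
  rw [hPc i j, hhz i] at e1
  rw [hPc i 0, hhz i] at e2
  exact_mod_cast (by linarith : (r j i : ℝ) = r 0 i)

/-- One level: digit vectors, pigeonhole over the shift and averaging over translations. -/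
lemma level (k E D Q B M N : ℕ) (V : Finset ℕ) (hBQ : B ≤ Q) (hV : V ⊆ range M)
    (hM : D * B ^ 2 ≤ M) (hM0 : 0 < M) (hl : Lifts k E D Q B M V) :
    ∃ A : Finset ℕ, A ⊆ range N ∧ Free k E A ∧
      N * (B ^ D * V.card) ≤ 2 * M * (N + Q ^ D) * A.card := by
  classical
  rcases Nat.eq_zero_or_pos N with rfl | hN0
  · exact ⟨∅, by simp, fun x hx _ j hj => absurd (hx j hj) (Finset.notMem_empty _), by simp⟩
  set box : Finset (Fin D → ℕ) := Fintype.piFinset (fun _ => range B) with hbox
  set sel : ℕ → Finset (Fin D → ℕ) := fun s =>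
    box.filter (fun r => ∃ v ∈ V, ∑ i, r i ^ 2 + s = v + M) with hsel
  have hbound : ∀ r ∈ box, ∑ i, r i ^ 2 ≤ M := by
    intro r hr
    calc ∑ i, r i ^ 2 ≤ ∑ _i : Fin D, B ^ 2 := Finset.sum_le_sum (fun i _ =>
          Nat.pow_le_pow_left (mem_range.mp (Fintype.mem_piFinset.mp hr i)).le 2)
      _ ≤ M := by simpa using hM
  have hcount : B ^ D * V.card ≤ ∑ s ∈ range (2 * M), (sel s).card := by
    have e : B ^ D * V.card = (box ×ˢ V).card := by simp [hbox]
    rw [e, ← Finset.card_sigma]
    refine card_le_card_of_injOn (fun p => ⟨p.2 + M - ∑ i, p.1 i ^ 2, p.1⟩) ?_ ?_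
    · rintro ⟨r, v⟩ hp
      simp only [coe_product, Set.mem_prod, mem_coe] at hp
      have h1 := hbound r hp.1
      have h2 := mem_range.mp (hV hp.2)
      simp only [coe_sigma, Set.mem_sigma_iff, mem_coe, hsel, mem_filter, mem_range]
      exact ⟨by omega, hp.1, v, hp.2, by omega⟩
    · rintro ⟨r, v⟩ hp ⟨r', v'⟩ hp' heq
      simp only [coe_product, Set.mem_prod, mem_coe] at hp hp'
      simp only [Sigma.mk.injEq] at heq
      obtain ⟨h1, h2⟩ := heq
      have h3 : r = r' := eq_of_heq h2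
      subst h3
      have h4 := hbound r hp.1
      congr 1
      omega
  obtain ⟨s, -, hs⟩ := Finset.exists_max_image (range (2 * M)) (fun s => (sel s).card)
    (by simp; omega)
  have hS : B ^ D * V.card ≤ 2 * M * (sel s).card := by
    refine hcount.trans ((Finset.sum_le_card_nsmul _ _ _ hs).trans ?_)
    simp
  set val : (Fin D → ℕ) → ℕ := fun r => ∑ i, r i * Q ^ (i : ℕ) with hval
  have hlt : ∀ r ∈ sel s, ∀ i, r i < B := fun r hr i =>
    mem_range.mp (Fintype.mem_piFinset.mp (mem_filter.mp hr).1 i)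
  have hvalQ : ∀ r ∈ sel s, val r < Q ^ D := by
    intro r hr
    have := (finFunctionFinEquiv (fun i => (⟨r i, (hlt r hr i).trans_le hBQ⟩ : Fin Q))).isLt
    rw [finFunctionFinEquiv_apply] at this
    exact this
  have hinj : Set.InjOn val (sel s) := by
    intro r hr r' hr' heq
    funext i
    have h1 : ∑ i, ((r i : ℤ) - r' i) * (Q : ℤ) ^ (i : ℕ) = 0 := by
      simp only [sub_mul, Finset.sum_sub_distrib, sub_eq_zero]
      exact_mod_cast heq
    have := digits_zero D Q _ (fun i => ?_) h1 i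
    · omega
    · have h1 := (hlt r hr i).trans_le hBQ
      have h2 := (hlt r' hr' i).trans_le hBQ
      rw [abs_lt]
      constructor <;> omega
  set A₀ := (sel s).image val with hA₀
  have hA₀c : A₀.card = (sel s).card := card_image_of_injOn hinj
  set At : ℕ → Finset ℕ := fun t =>
    (range N).filter (fun y => N ≤ y + t ∧ y + t - N ∈ A₀) with hAt
  have hpair : N * A₀.card ≤ ∑ t ∈ range (N + Q ^ D), (At t).card := by
    have e : N * A₀.card = (range N ×ˢ A₀).card := by simp
    rw [e, ← Finset.card_sigma]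
    refine card_le_card_of_injOn (fun p => ⟨p.2 + N - p.1, p.1⟩) ?_ ?_
    · rintro ⟨y, a⟩ hp
      simp only [coe_product, Set.mem_prod, mem_coe] at hp
      have h1 := mem_range.mp hp.1
      obtain ⟨r, hr, hra⟩ := Finset.mem_image.mp hp.2
      have h2 := hvalQ r hr
      simp only [coe_sigma, Set.mem_sigma_iff, mem_coe, hAt, mem_filter, mem_range]
      refine ⟨by omega, h1, by omega, ?_⟩
      have h3 : y + (a + N - y) - N = a := by omega
      rw [h3]
      exact hp.2
    · rintro ⟨y, a⟩ hp ⟨y', a'⟩ hp' heq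
      simp only [coe_product, Set.mem_prod, mem_coe, mem_range] at hp hp'
      simp only [Sigma.mk.injEq] at heq
      obtain ⟨h1, h2⟩ := heq
      have h3 : y = y' := eq_of_heq h2
      subst h3
      congr 1
      omega
  obtain ⟨t, -, ht⟩ := Finset.exists_max_image (range (N + Q ^ D)) (fun t => (At t).card)
    (by simp; omega)
  have hT : N * A₀.card ≤ (N + Q ^ D) * (At t).card := by
    refine hpair.trans ((Finset.sum_le_card_nsmul _ _ _ ht).trans ?_)
    simp
  refine ⟨At t, filter_subset _ _, ?_, ?_⟩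
  · intro x hx hrec
    have hdig : ∀ j, ∃ r : Fin D → ℕ, j < k → r ∈ sel s ∧ val r + N = x j + t := by
      intro j
      by_cases hj : j < k
      · obtain ⟨-, h1, h2⟩ := mem_filter.mp (hx j hj)
        obtain ⟨r, hr, hre⟩ := Finset.mem_image.mp h2
        exact ⟨r, fun _ => ⟨hr, by omega⟩⟩
      · exact ⟨fun _ => 0, fun h => absurd h hj⟩
    choose r hr using hdig
    have hrs := hl r (fun j hj i => hlt _ (hr j hj).1 i) ?_ s
      (fun j hj => (mem_filter.mp (hr j hj).1).2)
    · intro j hj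
      have e1 := (hr j hj).2
      have e2 := (hr 0 (by omega)).2
      rw [hrs j hj] at e1
      omega
    intro j hj
    rw [← diff_sum_mul univ (fun i t => (r t i : ℤ)) (fun i => (Q : ℤ) ^ (i : ℕ)) (E + 1) j]
    rw [diff_congr (g := fun u => (x u : ℤ) + ((t : ℤ) - N)) (E + 1) j (fun u h1 h2 => ?_)]
    · rw [show (fun u => (x u : ℤ) + ((t : ℤ) - N))
        = (fun u => (x u : ℤ)) + (fun _ => (t : ℤ) - N) from rfl, fwdDiff_iter_add]
      have hc : (Δ_[1])^[E + 1] (fun _ : ℕ => (t : ℤ) - N) j = 0 := by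
        rw [Function.iterate_succ_apply, fwdDiff_const]
        have := diff_sum_mul (∅ : Finset (Fin D)) (fun _ _ => (0 : ℤ)) (fun _ => 0) E j
        simpa using this
      rw [Pi.add_apply, hrec j hj, hc, add_zero]
    · have e := congrArg (fun n : ℕ => (n : ℤ)) (hr u (by omega)).2
      simp only [hval, Nat.cast_add, Nat.cast_sum, Nat.cast_mul, Nat.cast_pow] at e
      linarith
  · calc N * (B ^ D * V.card) ≤ N * (2 * M * (sel s).card) := Nat.mul_le_mul_left _ hS
      _ = 2 * M * (N * A₀.card) := by rw [hA₀c]; ring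
      _ ≤ 2 * M * ((N + Q ^ D) * (At t).card) := Nat.mul_le_mul_left _ hT
      _ = 2 * M * (N + Q ^ D) * (At t).card := by ring

end Vale.Agent.P057APFree
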