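import Mathlib

/-!
# A prime between `2 ^ (n - 1)` and `3 * 2 ^ (n - 2)` (P057)

El Bachraoui's argument for primes in `(2m, 3m]`, specialised to powers of two: without such a
prime, `(6F choose 4F) ≤ (6F)^(√(6F) + 2) * 4^F * (3F choose 2F)`, which is false for large `F`.
-/

namespace Vale.Agent.P057APFree

open Finset Nat

/-- The square of the smaller coefficient is at most the larger one. -/
lemma choose_sq_le (F : ℕ) :
    (3 * F).choose (2 * F) * (3 * F).choose (2 * F) ≤ (6 * F).choose (4 * F) := by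
  rw [show 6 * F = 3 * F + 3 * F by ring, Nat.add_choose_eq]
  exact Finset.single_le_sum
    (f := fun ij : ℕ × ℕ => (3 * F).choose ij.1 * (3 * F).choose ij.2) (fun _ _ => Nat.zero_le _)
    (show ((2 * F, 2 * F) : ℕ × ℕ) ∈ antidiagonal (4 * F) by
      rw [Finset.HasAntidiagonal.mem_antidiagonal]; ring)

/-- The middle term of `(1 + 2)^(3F)` is at least the average one. -/
lemma pow_le_choose (F : ℕ) :
    27 ^ F ≤ (3 * F + 1) * (4 ^ F * (3 * F).choose (2 * F)) := by
  set t : ℕ → ℕ := fun i => 2 ^ i * (3 * F).choose i with ht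
  have hsum : 27 ^ F = ∑ i ∈ range (3 * F + 1), t i := by
    rw [show (27 : ℕ) = 3 ^ 3 by norm_num, ← pow_mul, show (3 : ℕ) = 2 + 1 by norm_num, add_pow]
    simp [ht]
  have hmax : ∀ i ≤ 3 * F, t i ≤ t (2 * F) := by
    have up : ∀ i, i < 2 * F → t i ≤ t (i + 1) := by
      intro i hi
      have h := Nat.choose_succ_right_eq (3 * F) i
      refine Nat.le_of_mul_le_mul_right (c := i + 1) ?_ (by omega)
      calc t i * (i + 1) ≤ t i * (2 * (3 * F - i)) := Nat.mul_le_mul le_rfl (by omega)
        _ = 2 ^ (i + 1) * ((3 * F).choose i * (3 * F - i)) := by simp only [ht, pow_succ]; ring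
        _ = t (i + 1) * (i + 1) := by rw [← h]; simp only [ht]; ring
    have down : ∀ i, 2 * F ≤ i → t (i + 1) ≤ t i := by
      intro i hi
      have h := Nat.choose_succ_right_eq (3 * F) i
      refine Nat.le_of_mul_le_mul_right (c := i + 1) ?_ (by omega)
      calc t (i + 1) * (i + 1) = 2 ^ (i + 1) * ((3 * F).choose i * (3 * F - i)) := by
            rw [← h]; simp only [ht]; ring
        _ = t i * (2 * (3 * F - i)) := by simp only [ht, pow_succ]; ring
        _ ≤ t i * (i + 1) := Nat.mul_le_mul le_rfl (by omega)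
    intro i _
    rcases le_or_gt i (2 * F) with h | h
    · have : ∀ j, i ≤ j → j ≤ 2 * F → t i ≤ t j := fun j hij => by
        induction j, hij using Nat.le_induction with
        | base => exact fun _ => le_rfl
        | succ j _ ih => exact fun hj => (ih (by omega)).trans (up j (by omega))
      exact this _ h le_rfl
    · have : ∀ j, 2 * F ≤ j → t j ≤ t (2 * F) := fun j hj => by
        induction j, hj using Nat.le_induction with
        | base => exact le_rfl
        | succ j hj ih => exact (down j hj).trans ih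
      exact this _ h.le
  rw [hsum]
  refine (Finset.sum_le_card_nsmul _ _ (t (2 * F))
    (fun i hi => hmax i (by simpa using Nat.lt_succ_iff.mp (mem_range.mp hi)))).trans (le_of_eq ?_)
  rw [card_range, smul_eq_mul, ht]
  simp only [pow_mul]
  norm_num

/-- Above `√n`, a prime divides `n choose j` exactly when the last digits carry. -/
lemma carry_iff {p n j : ℕ} (hp : p.Prime) (hj : j ≤ n) (hpp : n < p ^ 2) :
    p ≤ j % p + (n - j) % p ↔ (n.choose j).factorization p ≠ 0 := by
  have hlog : log p n < 2 := by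
    rcases eq_or_ne n 0 with rfl | hn
    · simp
    · exact Nat.log_lt_of_lt_pow hn hpp
  rw [Nat.factorization_choose hp hj hlog]
  simp [show Ico 1 2 = ({1} : Finset ℕ) from rfl, filter_singleton]

/-- Without a prime in `[4F + 2, 6F]`, the coefficient `6F choose 4F` is small. -/
lemma choose_le_of_no_prime {F : ℕ} (hF : 0 < F)
    (hno : ∀ p, p.Prime → 4 * F + 2 ≤ p → 6 * F < p) :
    (6 * F).choose (4 * F) ≤ (6 * F) ^ (sqrt (6 * F) + 2) * 4 ^ F * (3 * F).choose (2 * F) := by
  set X := (6 * F).choose (4 * F) with hX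
  set Y := (3 * F).choose (2 * F) with hY
  set s := sqrt (6 * F) with hs
  set R := range (6 * F + 1) with hR
  set a : ℕ → ℕ := fun p => if p ≤ s ∨ p = 4 * F + 1 then 6 * F else 1 with ha
  set b : ℕ → ℕ := fun p => if p.Prime ∧ p ≤ F then p else 1 with hb
  set c : ℕ → ℕ := fun p => if p ∈ Y.primeFactors then p else 1 with hc
  have hterm : ∀ p ∈ R, p ^ X.factorization p ≤ a p * b p * c p := by
    intro p _
    have hc1 : 1 ≤ c p := by
      simp only [hc]; split_ifs with h
      · exact (Nat.prime_of_mem_primeFactors h).one_le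
      · rfl
    have hb1 : 1 ≤ b p := by
      simp only [hb]; split_ifs with h
      · exact h.1.one_le
      · rfl
    have ha1 : 1 ≤ a p := by simp only [ha]; split_ifs <;> omega
    by_cases hp : p.Prime
    swap
    · rw [Nat.factorization_eq_zero_of_not_prime _ hp, pow_zero]
      exact Nat.one_le_iff_ne_zero.mpr (by positivity)
    rcases eq_or_ne (X.factorization p) 0 with he | he
    · rw [he, pow_zero]
      exact Nat.one_le_iff_ne_zero.mpr (by positivity)
    by_cases hsmall : p ≤ s ∨ p = 4 * F + 1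
    · calc p ^ X.factorization p ≤ 6 * F := Nat.pow_factorization_choose_le (by omega)
        _ = a p := by simp only [ha, if_pos hsmall]
        _ ≤ a p * b p * c p := by
          rw [mul_assoc]
          exact Nat.le_mul_of_pos_right _ (by positivity)
    push Not at hsmall
    have hpp : 6 * F < p ^ 2 := Nat.sqrt_lt'.mp hsmall.1
    have he1 : X.factorization p = 1 := by
      have := Nat.factorization_choose_le_one (k := 4 * F) hpp
      rw [← hX] at this
      omega
    rw [he1, pow_one]
    by_cases hpF : p ≤ F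
    · calc p = b p := by simp only [hb, if_pos (And.intro hp hpF)]
        _ ≤ a p * b p * c p := by
          rw [mul_comm (a p), mul_assoc]
          exact Nat.le_mul_of_pos_right _ (by positivity)
    have hp6 : p ≤ 6 * F := by
      have := Nat.pow_factorization_choose_le (p := p) (k := 4 * F) (show 0 < 6 * F by omega)
      rwa [← hX, he1, pow_one] at this
    have hcarry := (carry_iff hp (show 4 * F ≤ 6 * F by omega) hpp).mpr he
    rw [show 6 * F - 4 * F = 2 * F by omega] at hcarry
    have hYne : Y.factorization p ≠ 0 := by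
      refine (carry_iff hp (show 2 * F ≤ 3 * F by omega) (by omega)).mp ?_
      rw [show 3 * F - 2 * F = F by omega, Nat.mod_eq_of_lt (show F < p by omega)]
      have hp4 : ¬ 4 * F + 2 ≤ p := fun h => by have := hno p hp h; omega
      have m2 : ∀ x : ℕ, x < p → x % p = x := fun x h => Nat.mod_eq_of_lt h
      have m1 : ∀ x q : ℕ, q * p ≤ x → x < q * p + p → x % p = x - q * p := fun x q h1 h2 => by
        conv_lhs => rw [show x = x - q * p + q * p by omega]
        rw [Nat.add_mul_mod_self_right, Nat.mod_eq_of_lt (by omega)]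
      rcases le_or_gt p (2 * F) with h2 | h2
      · rw [m1 (2 * F) 1 (by omega) (by omega)]
        rcases le_or_gt (2 * p) (3 * F) with h3 | h3
        · omega
        · rw [m1 (4 * F) 2 (by omega) (by omega), m1 (2 * F) 1 (by omega) (by omega)] at hcarry
          omega
      · rw [m2 (2 * F) h2]
        rw [m2 (2 * F) h2, m1 (4 * F) 1 (by omega) (by omega)] at hcarry
        omega
    have hmem : p ∈ Y.primeFactors := by
      rw [← Nat.support_factorization, Finsupp.mem_support_iff]
      exact hYne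
    calc p = c p := by simp only [hc, if_pos hmem]
      _ ≤ a p * b p * c p := Nat.le_mul_of_pos_left _ (by positivity)
  have hA : ∏ p ∈ R, a p ≤ (6 * F) ^ (s + 2) := by
    simp only [ha, Finset.prod_ite, prod_const, one_pow, mul_one]
    refine Nat.pow_le_pow_right (by omega) ((card_le_card (t := insert (4 * F + 1) (range (s + 1)))
      (fun p hp => ?_)).trans ((card_insert_le _ _).trans (by simp)))
    rcases (mem_filter.mp hp).2 with h | h
    · exact mem_insert_of_mem (mem_range.mpr (by omega))
    · exact mem_insert.mpr (Or.inl h)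
  have hB : ∏ p ∈ R, b p ≤ 4 ^ F := by
    refine le_of_eq_of_le ?_ (primorial_le_four_pow F)
    simp only [hb, primorial, Finset.prod_ite, prod_const_one, mul_one]
    refine Finset.prod_congr ?_ (fun _ _ => rfl)
    ext p
    simp only [hR, mem_filter, mem_range]
    constructor
    · rintro ⟨-, h1, h2⟩; exact ⟨by omega, h1⟩
    · rintro ⟨h1, h2⟩; exact ⟨by omega, h2, by omega⟩
  have hC : ∏ p ∈ R, c p ≤ Y := by
    have hYp : 0 < Y := Nat.choose_pos (by omega)
    refine le_trans ?_ (Nat.le_of_dvd hYp (Nat.prod_primeFactors_dvd Y))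
    simp only [hc, Finset.prod_ite, prod_const_one, mul_one]
    exact prod_le_prod_of_subset_of_one_le' (fun p hp => (mem_filter.mp hp).2)
      (fun p hp _ => (Nat.prime_of_mem_primeFactors hp).one_le)
  calc X = ∏ p ∈ R, p ^ X.factorization p := (Nat.prod_pow_factorization_choose _ _ (by omega)).symm
    _ ≤ ∏ p ∈ R, a p * b p * c p := Finset.prod_le_prod' hterm
    _ = (∏ p ∈ R, a p) * (∏ p ∈ R, b p) * ∏ p ∈ R, c p := by
      rw [Finset.prod_mul_distrib, Finset.prod_mul_distrib]
    _ ≤ (6 * F) ^ (s + 2) * 4 ^ F * Y := by gcongr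

/-- For `b ≥ 14` there is a prime in `[4 * 2^b + 2, 6 * 2^b]`. -/
lemma exists_prime_large {b : ℕ} (hb : 14 ≤ b) :
    ∃ p, p.Prime ∧ 4 * 2 ^ b + 2 ≤ p ∧ p ≤ 6 * 2 ^ b := by
  by_contra hcon
  push Not at hcon
  set F := 2 ^ b with hF
  have hF0 : 0 < F := by positivity
  set Y := (3 * F).choose (2 * F) with hY
  have hY0 : 0 < Y := Nat.choose_pos (by omega)
  set s := sqrt (6 * F) with hs
  have h1 : Y ≤ (6 * F) ^ (s + 2) * 4 ^ F :=
    Nat.le_of_mul_le_mul_right ((choose_sq_le F).trans (choose_le_of_no_prime hF0 hcon)) hY0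
  have h2 : 27 ^ F ≤ 2 ^ (b + 2 + (b + 3) * (s + 2) + 4 * F) := by
    refine (pow_le_choose F).trans ?_
    calc (3 * F + 1) * (4 ^ F * Y) ≤ 2 ^ (b + 2) * (4 ^ F * ((2 ^ (b + 3)) ^ (s + 2) * 4 ^ F)) := by
          gcongr
          · rw [pow_add, hF]; omega
          · refine h1.trans ?_
            gcongr
            rw [pow_add, hF]; omega
      _ = 2 ^ (b + 2 + (b + 3) * (s + 2) + 4 * F) := by
        rw [show (4 : ℕ) = 2 ^ 2 by norm_num, ← pow_mul, ← pow_mul, ← pow_add, ← pow_add,
          ← pow_add]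
        ring_nf
  obtain ⟨G, hG⟩ : ∃ G, F = 4 * G := ⟨2 ^ (b - 2), by
    rw [hF, show (4 : ℕ) = 2 ^ 2 by norm_num, ← pow_add]; congr 1; omega⟩
  have h3 : 2 ^ (19 * G) ≤ 27 ^ F := by
    rw [hG, pow_mul, pow_mul]
    exact Nat.pow_le_pow_left (by norm_num) _
  have h4 := (Nat.pow_le_pow_iff_right (show 1 < 2 by norm_num)).mp (h3.trans h2)
  obtain ⟨c, hc1, hc2, hc7⟩ : ∃ c, 2 * c ≤ b ∧ b ≤ 2 * c + 1 ∧ 7 ≤ c :=
    ⟨b / 2, by omega, by omega, by omega⟩
  obtain ⟨u, hu⟩ : ∃ u, u = 2 ^ c := ⟨_, rfl⟩
  have hFu : u * u ≤ F := by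
    rw [hu, ← pow_add, hF]; exact Nat.pow_le_pow_right (by norm_num) (by omega)
  have hFu' : F ≤ 2 * (u * u) := by
    rw [hu, ← pow_add, hF, ← pow_succ']; exact Nat.pow_le_pow_right (by norm_num) (by omega)
  have hsu : s ≤ 4 * u := by
    have := Nat.sqrt_le' (6 * F)
    rw [← hs] at this
    nlinarith
  have hlin : 40 * (c + 2) ≤ 3 * u := by
    rw [hu]
    clear hu hc1 hc2
    induction c, hc7 using Nat.le_induction with
    | base => norm_num
    | succ c hc ih =>
      rw [pow_succ]
      have : 2 ^ 7 ≤ 2 ^ c := Nat.pow_le_pow_right (by norm_num) hc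
      norm_num at this
      omega
  have h5 : b + 2 + (b + 3) * (s + 2) ≤ (2 * c + 4) * (4 * u + 3) := by
    have : (b + 3) * (s + 2) ≤ (2 * c + 4) * (4 * u + 2) := Nat.mul_le_mul (by omega) (by omega)
    have e : (2 * c + 4) * (4 * u + 3) = (2 * c + 4) * (4 * u + 2) + (2 * c + 4) := by ring
    omega
  have h6 : 8 * ((2 * c + 4) * (4 * u + 3)) < 6 * (u * u) := by
    have hu4 : 4 ≤ u := by
      have : 2 ^ 2 ≤ 2 ^ c := Nat.pow_le_pow_right (by norm_num) (by omega)
      rw [hu]; omega
    nlinarith [Nat.mul_le_mul_right u hlin, Nat.mul_le_mul_left (c + 2) hu4]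
  omega

/-- For `n ≥ 3` some prime lies in `[2^(n-1) + 2, 3 * 2^(n-2) + 2]`. -/
lemma exists_prime_three_halves {n : ℕ} (hn : 3 ≤ n) :
    ∃ p, p.Prime ∧ 2 ^ (n - 1) + 2 ≤ p ∧ p ≤ 3 * 2 ^ (n - 2) + 2 := by
  rcases le_or_gt 17 n with h | h
  · obtain ⟨p, hp, h1, h2⟩ := exists_prime_large (b := n - 3) (by omega)
    refine ⟨p, hp, ?_, ?_⟩
    · rw [show n - 1 = n - 3 + 2 by omega, pow_add]; omega
    · rw [show n - 2 = n - 3 + 1 by omega, pow_add]; omega
  · interval_cases n
    · exact ⟨7, by norm_num, by norm_num, by norm_num⟩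
    · exact ⟨11, by norm_num, by norm_num, by norm_num⟩
    · exact ⟨19, by norm_num, by norm_num, by norm_num⟩
    · exact ⟨37, by norm_num, by norm_num, by norm_num⟩
    · exact ⟨67, by norm_num, by norm_num, by norm_num⟩
    · exact ⟨131, by norm_num, by norm_num, by norm_num⟩
    · exact ⟨263, by norm_num, by norm_num, by norm_num⟩
    · exact ⟨521, by norm_num, by norm_num, by norm_num⟩
    · exact ⟨1031, by norm_num, by norm_num, by norm_num⟩
    · exact ⟨2053, by norm_num, by norm_num, by norm_num⟩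
    · exact ⟨4099, by norm_num, by norm_num, by norm_num⟩
    · exact ⟨8209, by norm_num, by norm_num, by norm_num⟩
    · exact ⟨16411, by norm_num, by norm_num, by norm_num⟩
    · exact ⟨32771, by norm_num, by norm_num, by norm_num⟩

end Vale.Agent.P057APFree
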